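import Mathlib

namespace Vale.Agent.Lib.P057R3

open Finset

/-- The first integer of parity `e` at or after `i p / G`. -/
def apStart (G p e i : ℕ) : ℕ :=
  (i * p + G - 1) / G + ((i * p + G - 1) / G + e) % 2

lemma apStart_parity (G p i : ℕ) {e : ℕ} (he : e < 2) (j : ℕ) :
    (apStart G p e i + 2 * j) % 2 = e := by
  unfold apStart
  omega

lemma apStart_lower (G p e i : ℕ) (hG : 0 < G) : i * p ≤ G * apStart G p e i := by
  unfold apStart
  set c := (i * p + G - 1) / G with hc
  have h1 : G * c + (i * p + G - 1) % G = i * p + G - 1 := Nat.div_add_mod _ _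
  have h2 := Nat.mod_lt (i * p + G - 1) hG
  have h3 : G * c ≤ G * (c + (c + e) % 2) := Nat.mul_le_mul_left _ (by omega)
  omega

lemma apStart_upper (G p e i : ℕ) (hG : 0 < G) :
    G * apStart G p e i ≤ i * p + 2 * G - 1 := by
  unfold apStart
  set c := (i * p + G - 1) / G with hc
  have h1 : G * c + (i * p + G - 1) % G = i * p + G - 1 := Nat.div_add_mod _ _
  have h4 : (c + e) % 2 ≤ 1 := by omega
  have h3 : G * (c + (c + e) % 2) ≤ G * c + G := by
    rw [mul_add]
    have := Nat.mul_le_mul_left G h4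
    omega
  omega

/-- The number of terms used in one cell. -/
def apLen (G p : ℕ) : ℕ := p / (2 * G)

lemma apLen_spec (G p : ℕ) (hG : 0 < G) : 2 * G * apLen G p ≤ p ∧ p < 2 * G * apLen G p + 2 * G := by
  unfold apLen
  have h1 := Nat.div_add_mod p (2 * G)
  have h2 := Nat.mod_lt p (show 0 < 2 * G by omega)
  constructor <;> omega

/-- The terms stay in the cell. -/
lemma apTerm_lt (G p e i j : ℕ) (hG : 0 < G) (he : e < 2) (hj : j < apLen G p) :
    G * (apStart G p e i + 2 * j) < (i + 1) * p := by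
  have h1 := apStart_upper G p e i hG
  have h2 := (apLen_spec G p hG).1
  have h3 : j + 1 ≤ apLen G p := hj
  have h4 : 2 * G * (j + 1) ≤ 2 * G * apLen G p := Nat.mul_le_mul_left _ h3
  have h5 : 0 < p := by
    by_contra h
    have : p = 0 := by omega
    subst this
    have : apLen G 0 = 0 := by simp [apLen]
    omega
  have e1 : G * (apStart G p e i + 2 * j) = G * apStart G p e i + 2 * G * j := by ring
  have e2 : (i + 1) * p = i * p + p := by ring
  have e3 : 2 * G * (j + 1) = 2 * G * j + 2 * G := by ring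
  rw [e1, e2]
  rw [e3] at h4
  omega

lemma apTerm_ge (G p e i j : ℕ) (hG : 0 < G) :
    i * p + 2 * G * j ≤ G * (apStart G p e i + 2 * j) := by
  have h1 := apStart_lower G p e i hG
  nlinarith

/-- The terms are below `p` when the cell is in the range. -/
lemma apTerm_lt_p (G p e i j : ℕ) (hG : 0 < G) (he : e < 2) (hi : i < G) (hj : j < apLen G p) :
    apStart G p e i + 2 * j < p := by
  have h1 := apTerm_lt G p e i j hG he hj
  have h2 : (i + 1) * p ≤ G * p := Nat.mul_le_mul_right _ hi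
  have h3 : G * (apStart G p e i + 2 * j) < G * p := by omega
  exact Nat.lt_of_mul_lt_mul_left h3

/-- The indices can be recovered from the term. -/
lemma apTerm_inj (G p e : ℕ) (hG : 0 < G) (he : e < 2) {i i' j j' : ℕ}
    (hj : j < apLen G p) (hj' : j' < apLen G p)
    (h : apStart G p e i + 2 * j = apStart G p e i' + 2 * j') : i = i' ∧ j = j' := by
  have l1 := apTerm_ge G p e i j hG
  have l2 := apTerm_ge G p e i' j' hG
  have u1 := apTerm_lt G p e i j hG he hj
  have u2 := apTerm_lt G p e i' j' hG he hj'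
  rw [h] at l1 u1
  have hp : 0 < p := by
    by_contra hc
    have : p = 0 := by omega
    subst this
    have : apLen G 0 = 0 := by simp [apLen]
    omega
  have hi : i = i' := by
    have h1 : i * p < (i' + 1) * p := by
      have := Nat.le_add_right (i * p) (2 * G * j)
      omega
    have h2 : i' * p < (i + 1) * p := by
      have := Nat.le_add_right (i' * p) (2 * G * j')
      omega
    have h3 := Nat.lt_of_mul_lt_mul_right h1
    have h4 := Nat.lt_of_mul_lt_mul_right h2
    omega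
  subst hi
  exact ⟨rfl, by omega⟩

/-- The position of a term in its cell. -/
noncomputable def apPos (G p e i j : ℕ) : ℝ :=
  ((G : ℝ) * (apStart G p e i + 2 * j) - i * p) / p

lemma apPos_nonneg (G p e i j : ℕ) (hG : 0 < G) (hp : 0 < p) :
    2 * (G : ℝ) * j / p ≤ apPos G p e i j := by
  have h := apTerm_ge G p e i j hG
  have h' : ((i * p + 2 * G * j : ℕ) : ℝ) ≤ ((G * (apStart G p e i + 2 * j) : ℕ) : ℝ) := by
    exact_mod_cast h
  push_cast at h'
  unfold apPos
  have hpr : (0 : ℝ) < p := by exact_mod_cast hp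
  apply div_le_div_of_nonneg_right _ hpr.le
  linarith

lemma apPos_upper (G p e i j : ℕ) (hG : 0 < G) (he : e < 2) (hp : 0 < p) :
    apPos G p e i j ≤ 2 * (G : ℝ) * (j + 1) / p := by
  have h := apStart_upper G p e i hG
  have h' : G * apStart G p e i + 1 ≤ i * p + 2 * G := by omega
  have h'' : ((G * apStart G p e i + 1 : ℕ) : ℝ) ≤ ((i * p + 2 * G : ℕ) : ℝ) := by
    exact_mod_cast h'
  push_cast at h''
  unfold apPos
  have hpr : (0 : ℝ) < p := by exact_mod_cast hp
  apply div_le_div_of_nonneg_right _ hpr.le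
  nlinarith

lemma apPos_lt_one (G p e i j : ℕ) (hG : 0 < G) (he : e < 2) (hj : j < apLen G p) (hp : 0 < p) :
    apPos G p e i j < 1 := by
  have h := apTerm_lt G p e i j hG he hj
  have h' : ((G * (apStart G p e i + 2 * j) : ℕ) : ℝ) < (((i + 1) * p : ℕ) : ℝ) := by
    exact_mod_cast h
  push_cast at h'
  unfold apPos
  have hpr : (0 : ℝ) < p := by exact_mod_cast hp
  rw [div_lt_one hpr]
  linarith

lemma apPos_coord (G p e i j : ℕ) (hG : 0 < G) (hp : 0 < p) :
    ((apStart G p e i + 2 * j : ℕ) : ℝ) / p = (i + apPos G p e i j) / G := by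
  unfold apPos
  have hpr : (p : ℝ) ≠ 0 := by positivity
  have hGr : (G : ℝ) ≠ 0 := by positivity
  push_cast
  field_simp
  ring

lemma sum_range_two_mul (n : ℕ) : ∑ j ∈ range n, (2 * (j : ℝ)) = n * (n - 1) := by
  induction n with
  | zero => simp
  | succ n ih =>
    rw [sum_range_succ, ih]
    push_cast
    ring

/-- The lower bound for the two weights. -/
noncomputable def apW (G p : ℕ) : ℝ := 1 / 2 - 2 * G / p

lemma apLen_real (G p : ℕ) (hG : 0 < G) :
    2 * (G : ℝ) * apLen G p ≤ p ∧ (p : ℝ) < 2 * G * apLen G p + 2 * G := by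
  obtain ⟨h1, h2⟩ := apLen_spec G p hG
  constructor
  · exact_mod_cast h1
  · exact_mod_cast h2

lemma sum_apPos_ge (G p e i : ℕ) (hG : 0 < G) (hp : 0 < p) :
    (apLen G p : ℝ) * apW G p ≤ ∑ j ∈ range (apLen G p), apPos G p e i j := by
  have h1 : ∑ j ∈ range (apLen G p), (2 * (G : ℝ) * j / p) ≤
      ∑ j ∈ range (apLen G p), apPos G p e i j :=
    sum_le_sum fun j _ => apPos_nonneg G p e i j hG hp
  have h2 : ∑ j ∈ range (apLen G p), (2 * (G : ℝ) * j / p) =
      (G : ℝ) / p * (apLen G p * (apLen G p - 1)) := by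
    rw [← sum_range_two_mul, mul_sum]
    refine sum_congr rfl fun j _ => ?_
    ring
  rw [h2] at h1
  refine le_trans ?_ h1
  obtain ⟨h3, h4⟩ := apLen_real G p hG
  have hpr : (0 : ℝ) < p := by exact_mod_cast hp
  have hGr : (0 : ℝ) < G := by exact_mod_cast hG
  set n : ℝ := (apLen G p : ℝ) with hn
  have hn0 : 0 ≤ n := by positivity
  unfold apW
  have key : 1 / 2 - 2 * (G : ℝ) / p ≤ (G : ℝ) / p * (n - 1) := by
    have : (G : ℝ) / p * (n - 1) - (1 / 2 - 2 * (G : ℝ) / p) =
        (2 * G * n + 2 * G - p) / (2 * p) := by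
      field_simp
      ring
    have h5 : 0 ≤ (2 * (G : ℝ) * n + 2 * G - p) / (2 * p) := by
      apply div_nonneg <;> linarith
    linarith
  calc n * (1 / 2 - 2 * (G : ℝ) / p) ≤ n * ((G : ℝ) / p * (n - 1)) :=
        mul_le_mul_of_nonneg_left key hn0
    _ = (G : ℝ) / p * (n * (n - 1)) := by ring

lemma sum_one_sub_apPos_ge (G p e i : ℕ) (hG : 0 < G) (he : e < 2) (hp : 0 < p) :
    (apLen G p : ℝ) * apW G p ≤ ∑ j ∈ range (apLen G p), (1 - apPos G p e i j) := by
  have h1 : ∑ j ∈ range (apLen G p), (1 - 2 * (G : ℝ) * (j + 1) / p) ≤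
      ∑ j ∈ range (apLen G p), (1 - apPos G p e i j) :=
    sum_le_sum fun j _ => by
      have := apPos_upper G p e i j hG he hp
      linarith
  have h2 : ∑ j ∈ range (apLen G p), (1 - 2 * (G : ℝ) * (j + 1) / p) =
      (apLen G p : ℝ) - (G : ℝ) / p * (apLen G p * (apLen G p - 1)) -
        2 * (G : ℝ) / p * apLen G p := by
    rw [← sum_range_two_mul, mul_sum, sum_sub_distrib, sum_const, card_range, nsmul_eq_mul, mul_one]
    have : ∑ j ∈ range (apLen G p), (2 * (G : ℝ) * (j + 1) / p) =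
        ∑ j ∈ range (apLen G p), ((G : ℝ) / p * (2 * (j : ℝ)) + 2 * (G : ℝ) / p) := by
      refine sum_congr rfl fun j _ => ?_
      field_simp
    rw [this, sum_add_distrib, sum_const, card_range, nsmul_eq_mul]
    ring
  rw [h2] at h1
  refine le_trans ?_ h1
  obtain ⟨h3, h4⟩ := apLen_real G p hG
  have hpr : (0 : ℝ) < p := by exact_mod_cast hp
  have hGr : (0 : ℝ) < G := by exact_mod_cast hG
  set n : ℝ := (apLen G p : ℝ) with hn
  have hn0 : 0 ≤ n := by positivity
  unfold apW
  have key : 1 / 2 - 2 * (G : ℝ) / p ≤ 1 - (G : ℝ) / p * (n - 1) - 2 * (G : ℝ) / p := by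
    have : (1 - (G : ℝ) / p * (n - 1) - 2 * (G : ℝ) / p) - (1 / 2 - 2 * (G : ℝ) / p) =
        (p - 2 * G * n + 2 * G) / (2 * p) := by
      field_simp
      ring
    have h5 : 0 ≤ (p - 2 * (G : ℝ) * n + 2 * G) / (2 * p) := by
      apply div_nonneg <;> linarith
    linarith
  calc n * (1 / 2 - 2 * (G : ℝ) / p) ≤ n * (1 - (G : ℝ) / p * (n - 1) - 2 * (G : ℝ) / p) :=
        mul_le_mul_of_nonneg_left key hn0
    _ = n - (G : ℝ) / p * (n * (n - 1)) - 2 * (G : ℝ) / p * n := by ring

/-- Fibres: the number of digits of a parity in an interval. -/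
lemma fibre_card (p e : ℕ) (he : e < 2) (hp : 0 < p) {Lo Hi : ℝ} (h0 : 0 ≤ Lo) (h1 : Lo ≤ Hi)
    (h2 : Hi ≤ 1) :
    (Hi - Lo) * p / 2 - 1 ≤
      (((range p).filter (fun a => a % 2 = e ∧ Lo ≤ (a : ℝ) / p ∧ (a : ℝ) / p ≤ Hi)).card : ℝ) := by
  have hpr : (0 : ℝ) < p := by exact_mod_cast hp
  set m : ℕ := ⌊(Hi - Lo) * p / 2⌋₊ with hm
  have hnn : 0 ≤ (Hi - Lo) * p / 2 := by
    apply div_nonneg (mul_nonneg (by linarith) hpr.le) (by norm_num)
  have hm1 : (m : ℝ) ≤ (Hi - Lo) * p / 2 := Nat.floor_le hnn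
  have hm2 : (Hi - Lo) * p / 2 < m + 1 := Nat.lt_floor_add_one _
  set s0 : ℕ := ⌈Lo * p⌉₊ with hs0
  have hs1 : Lo * p ≤ s0 := Nat.le_ceil _
  have hs2 : (s0 : ℝ) < Lo * p + 1 := Nat.ceil_lt_add_one (mul_nonneg h0 hpr.le)
  set s : ℕ := s0 + (s0 + e) % 2 with hs
  have hs3 : (s : ℝ) ≤ s0 + 1 := by
    have : s ≤ s0 + 1 := by omega
    exact_mod_cast this
  have hs4 : (s0 : ℝ) ≤ s := by
    have : s0 ≤ s := by omega
    exact_mod_cast this
  have hsub : (range m).image (fun j => s + 2 * j) ⊆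
      (range p).filter (fun a => a % 2 = e ∧ Lo ≤ (a : ℝ) / p ∧ (a : ℝ) / p ≤ Hi) := by
    intro a ha
    obtain ⟨j, hj, rfl⟩ := mem_image.1 ha
    have hj' : (j : ℝ) + 1 ≤ m := by
      have : j + 1 ≤ m := mem_range.1 hj
      exact_mod_cast this
    have hub : ((s + 2 * j : ℕ) : ℝ) < Hi * p := by
      push_cast
      nlinarith
    have hlb : Lo * p ≤ ((s + 2 * j : ℕ) : ℝ) := by
      push_cast
      have : (0 : ℝ) ≤ j := by positivity
      linarith
    rw [mem_filter, mem_range]
    refine ⟨?_, by omega, ?_, ?_⟩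
    · have : ((s + 2 * j : ℕ) : ℝ) < p := by nlinarith
      exact_mod_cast this
    · rw [le_div_iff₀ hpr]
      exact hlb
    · rw [div_le_iff₀ hpr]
      exact hub.le
  have hcard : ((range m).image (fun j => s + 2 * j)).card = m := by
    rw [card_image_of_injective _ (by intro a b h; simp only at h; omega), card_range]
  have := card_le_card hsub
  rw [hcard] at this
  have h3 : (m : ℝ) ≤ (((range p).filter
      (fun a => a % 2 = e ∧ Lo ≤ (a : ℝ) / p ∧ (a : ℝ) / p ≤ Hi)).card : ℝ) := by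
    exact_mod_cast this
  linarith

end Vale.Agent.Lib.P057R3
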