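import Vale.Agent.Lib.P057R3.Digit

namespace Vale.Agent.Lib.P057R3

open Finset

section Block

variable {p1 p2 p3 : ℕ} [NeZero p1] [NeZero p2] [NeZero p3]

open Classical in
/-- The digit region in the product ring. -/
noncomputable def TZ (p1 p2 p3 : ℕ) [NeZero p1] [NeZero p2] [NeZero p3] : Finset (ZZ p1 p2 p3) :=
  univ.filter InZ

lemma TN_card_le_TZ : (TN p1 p2 p3).card ≤ (TZ p1 p2 p3).card := by
  classical
  apply Finset.card_le_card_of_injOn
    (fun a => (((a.1 : ZMod p1), (a.2.1 : ZMod p2)), (a.2.2 : ZMod p3)))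
  · rintro ⟨a, b, c⟩ h
    unfold TN at h
    simp only [coe_filter, mem_product, mem_range, Set.mem_setOf_eq] at h
    obtain ⟨⟨ha, hb, hc⟩, hS⟩ := h
    unfold TZ
    simp only [coe_filter, mem_univ, true_and, Set.mem_setOf_eq]
    unfold InZ nd
    simp only [ZMod.val_natCast_of_lt ha, ZMod.val_natCast_of_lt hb, ZMod.val_natCast_of_lt hc]
    exact hS
  · rintro ⟨a, b, c⟩ h ⟨a', b', c'⟩ h' e
    unfold TN at h h'
    simp only [coe_filter, mem_product, mem_range, Set.mem_setOf_eq] at h h'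
    obtain ⟨⟨ha, hb, hc⟩, -⟩ := h
    obtain ⟨⟨ha', hb', hc'⟩, -⟩ := h'
    simp only [Prod.mk.injEq] at e
    obtain ⟨⟨e1, e2⟩, e3⟩ := e
    have e1' := congrArg ZMod.val e1
    have e2' := congrArg ZMod.val e2
    have e3' := congrArg ZMod.val e3
    rw [ZMod.val_natCast_of_lt ha, ZMod.val_natCast_of_lt ha'] at e1'
    rw [ZMod.val_natCast_of_lt hb, ZMod.val_natCast_of_lt hb'] at e2'
    rw [ZMod.val_natCast_of_lt hc, ZMod.val_natCast_of_lt hc'] at e3'
    subst e1' e2' e3'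
    rfl

end Block

/-- The ring isomorphism of a block. -/
noncomputable def blockEquiv {p1 p2 p3 : ℕ} (h12 : Nat.Coprime p1 p2)
    (h3 : Nat.Coprime (p1 * p2) p3) : ZMod (p1 * p2 * p3) ≃+* ZZ p1 p2 p3 :=
  (ZMod.chineseRemainder h3).trans
    (RingEquiv.prodCongr (ZMod.chineseRemainder h12) (RingEquiv.refl (ZMod p3)))

/-- A block: the digit set and the certificate in `ZMod (p1 * p2 * p3)`. -/
theorem block_exists {p1 p2 p3 P : ℕ} [NeZero p1] [NeZero p2] [NeZero p3] (h12 : Nat.Coprime p1 p2)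
    (h3 : Nat.Coprime (p1 * p2) p3) (o1 : p1 % 2 = 1) (o2 : p2 % 2 = 1) (o3 : p3 % 2 = 1)
    (hP1 : p1 ≤ P) (hP2 : p2 ≤ P) (hP3 : p3 ≤ P) :
    ∃ (T : Finset (ZMod (p1 * p2 * p3))) (F : ZMod (p1 * p2 * p3) → ℤ),
      (TN p1 p2 p3).card ≤ T.card ∧
      (∀ z ∈ T, |F z| ≤ (((8 * FMax + 1) * P ^ 2 : ℕ) : ℤ)) ∧
      ∀ a b : ZMod (p1 * p2 * p3), a ∈ T → a + b ∈ T → a + 2 * b ∈ T →
        0 ≤ F a + F (a + 2 * b) - 2 * F (a + b) ∧
        (F a + F (a + 2 * b) - 2 * F (a + b) = 0 → b = 0) := by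
  classical
  have hm : NeZero (p1 * p2 * p3) := ⟨by
    have h1 := NeZero.ne p1
    have h2 := NeZero.ne p2
    have h3 := NeZero.ne p3
    positivity⟩
  set Φ := blockEquiv h12 h3 with hΦ
  have hPpos : 1 ≤ P := by
    have : 0 < p1 := NeZero.pos p1
    omega
  refine ⟨(TZ p1 p2 p3).map Φ.symm.toEquiv.toEmbedding, fun z => FZ P (Φ z), ?_, ?_, ?_⟩
  · rw [card_map]
    exact TN_card_le_TZ
  · intro z _
    exact FZ_abs_le hPpos _
  · intro a b ha hb hc
    have mem : ∀ z : ZMod (p1 * p2 * p3),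
        z ∈ (TZ p1 p2 p3).map Φ.symm.toEquiv.toEmbedding → InZ (Φ z) := by
      intro z hz
      obtain ⟨u, hu, rfl⟩ := mem_map.1 hz
      have e : Φ (Φ.symm.toEquiv.toEmbedding u) = u := Φ.apply_symm_apply u
      rw [e]
      unfold TZ at hu
      simpa using hu
    have m0 := mem _ ha
    have m1 := mem _ hb
    have m2 := mem _ hc
    have e1 : Φ (a + b) = Φ a + Φ b := map_add Φ a b
    have e2 : Φ (a + 2 * b) = Φ a + 2 * Φ b := by
      rw [map_add, map_mul, map_ofNat]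
    rw [e1] at m1
    rw [e2] at m2
    have key := FZ_cert o1 o2 o3 hP1 hP2 hP3 (Φ a) (Φ b) m0 m1 m2
    simp only [e1, e2]
    refine ⟨key.1, fun h => ?_⟩
    have := key.2 h
    exact (map_eq_zero_iff Φ Φ.injective).1 this

end Vale.Agent.Lib.P057R3
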