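import Vale.Agent.Lib.P057R3.Pairs

namespace Vale.Agent.Lib.P057R3

variable {a1 a2 a3 b1 b2 b3 c1 c2 c3 : ℝ}

lemma InS.top {e₁ e₂ e₃ : ℕ} {x y z : ℝ} (h : InS e₁ e₂ e₃ x y z) : Top x y z := by
  rcases h with ⟨-, -, -, h⟩ | ⟨-, -, -, h⟩ | ⟨-, -, -, h⟩ | ⟨-, -, -, h⟩ <;> exact h.1

/-- The exact value of the certificate sum on a true progression. -/
lemma Fsum_true (h1 : a1 + b1 - 2 * c1 = 0) (h2 : a2 + b2 - 2 * c2 = 0)
    (h3 : a3 + b3 - 2 * c3 = 0) :
    ((a1 - b1) ^ 2 + (a2 - b2) ^ 2 + (a3 - b3) ^ 2) / 2 ≤ Fsum a1 a2 a3 b1 b2 b3 c1 c2 c3 := by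
  have e1 : c1 = (a1 + b1) / 2 := by linarith
  have e2 : c2 = (a2 + b2) / 2 := by linarith
  have e3 : c3 = (a3 + b3) / 2 := by linarith
  subst e1 e2 e3
  have h : Fsum a1 a2 a3 b1 b2 b3 ((a1 + b1) / 2) ((a2 + b2) / 2) ((a3 + b3) / 2) =
      200000000000000000000000 * (((a1 + a2 + a3) - (b1 + b2 + b3)) ^ 2 / 2) +
      1000000000000 * (((a1 + a2) - (b1 + b2)) ^ 2 / 2) +
      ((a1 - b1) ^ 2 + (a2 - b2) ^ 2 + (a3 - b3) ^ 2) / 2 := by
    unfold Fsum Fn
    ring
  rw [h]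
  have h4 := sq_nonneg ((a1 + a2 + a3) - (b1 + b2 + b3))
  have h5 := sq_nonneg ((a1 + a2) - (b1 + b2))
  linarith

/-- Integers in `(-2,2)`. -/
lemma int_cases {w : ℤ} {x : ℝ} (h : x = w) (h1 : -2 < x) (h2 : x < 2) :
    w = -1 ∨ w = 0 ∨ w = 1 := by
  subst h
  have h3 : (-2 : ℤ) < w := by exact_mod_cast h1
  have h4 : w < 2 := by exact_mod_cast h2
  omega

/-- The real certificate: a triple with `a + b - 2 c = w` in the digit region is either a true
progression or has certificate sum at least one. -/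
theorem cert_real {ea1 ea2 ea3 eb1 eb2 eb3 : ℕ} {w1 w2 w3 : ℤ}
    (ha : Box a1 a2 a3) (hb : Box b1 b2 b3) (hc : Box c1 c2 c3)
    (hA : InS ea1 ea2 ea3 a1 a2 a3) (hB : InS eb1 eb2 eb3 b1 b2 b3) (hTop : Top c1 c2 c3)
    (h1 : a1 + b1 - 2 * c1 = w1) (h2 : a2 + b2 - 2 * c2 = w2) (h3 : a3 + b3 - 2 * c3 = w3)
    (p1 : (w1 + ea1 + eb1) % 2 = 0) (p2 : (w2 + ea2 + eb2) % 2 = 0)
    (p3 : (w3 + ea3 + eb3) % 2 = 0) (hne : a2 ≠ 1 / 2) (hne' : b2 ≠ 1 / 2) :
    (w1 = 0 ∧ w2 = 0 ∧ w3 = 0) ∨ 1 ≤ Fsum a1 a2 a3 b1 b2 b3 c1 c2 c3 := by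
  have w1c : w1 = -1 ∨ w1 = 0 ∨ w1 = 1 := by
    obtain ⟨r0, r1, -, -, -, -⟩ := ha
    obtain ⟨s0, s1, -, -, -, -⟩ := hb
    obtain ⟨u0, u1, -, -, -, -⟩ := hc
    exact int_cases h1 (by linarith) (by linarith)
  have w2c : w2 = -1 ∨ w2 = 0 ∨ w2 = 1 := by
    obtain ⟨-, -, r0, r1, -, -⟩ := ha
    obtain ⟨-, -, s0, s1, -, -⟩ := hb
    obtain ⟨-, -, u0, u1, -, -⟩ := hc
    exact int_cases h2 (by linarith) (by linarith)
  have w3c : w3 = -1 ∨ w3 = 0 ∨ w3 = 1 := by
    obtain ⟨-, -, -, -, r0, r1⟩ := ha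
    obtain ⟨-, -, -, -, s0, s1⟩ := hb
    obtain ⟨-, -, -, -, u0, u1⟩ := hc
    exact int_cases h3 (by linarith) (by linarith)
  rcases hA with ⟨rfl, rfl, rfl, hA⟩ | ⟨rfl, rfl, rfl, hA⟩ | ⟨rfl, rfl, rfl, hA⟩ | ⟨rfl, rfl, rfl, hA⟩ <;>
  rcases hB with ⟨rfl, rfl, rfl, hB⟩ | ⟨rfl, rfl, rfl, hB⟩ | ⟨rfl, rfl, rfl, hB⟩ | ⟨rfl, rfl, rfl, hB⟩
  · -- 0,0
    left; omega
  · -- 0,A
    right
    have e3 : w3 = 0 := by omega
    subst e3
    exact pair_0A ha hb hc hA hB hTop h1 h2 (by simpa using h3) (by omega) (by omega)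
  · -- 0,B
    right
    have e2 : w2 = 0 := by omega
    subst e2
    exact pair_13 ha hb hc hA.2.2.2.2 hB.2.2.2.1 hTop
      (by have := hA.2.2.1; have := hB.2.1; norm_num at *; linarith)
      h1 (by simpa using h2) h3 (by omega) (by omega)
  · -- 0,C
    right
    have e1 : w1 = 0 := by omega
    subst e1
    exact pair_23 ha hb hc hA.2.2.2.2 hB.2.2.2.1 hTop
      (by have := hA.2.2.2.1; have := hB.2.2.1; norm_num at *; linarith)
      (by simpa using h1) h2 h3 (by omega) (by omega)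
  · -- A,0
    right
    have e3 : w3 = 0 := by omega
    subst e3
    rw [Fsum_comm]
    exact pair_0A (w1 := w1) (w2 := w2) hb ha hc hB hA hTop (by linarith) (by linarith) (by push_cast at h3; linarith)
      (by omega) (by omega)
  · -- A,A
    left; omega
  · -- A,B
    right
    have e1 : w1 = 0 := by omega
    subst e1
    exact pair_23 ha hb hc hA.2.2.2.2 hB.2.2.2.1 hTop
      (by have := hA.2.2.2.1; have := hB.2.2.1; norm_num at *; linarith)
      (by simpa using h1) h2 h3 (by omega) (by omega)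
  · -- A,C
    right
    have e2 : w2 = 0 := by omega
    subst e2
    exact pair_13 ha hb hc hA.2.2.2.2 hB.2.2.2.1 hTop
      (by have := hA.2.2.1; have := hB.2.1; norm_num at *; linarith)
      h1 (by simpa using h2) h3 (by omega) (by omega)
  · -- B,0
    right
    have e2 : w2 = 0 := by omega
    subst e2
    rw [Fsum_comm]
    exact pair_13 (w1 := w1) (w3 := w3) hb ha hc hB.2.2.2.2 hA.2.2.2.1 hTop
      (by have := hB.2.2.1; have := hA.2.1; norm_num at *; linarith)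
      (by linarith) (by push_cast at h2; linarith) (by linarith) (by omega) (by omega)
  · -- B,A
    right
    have e1 : w1 = 0 := by omega
    subst e1
    rw [Fsum_comm]
    exact pair_23 (w2 := w2) (w3 := w3) hb ha hc hB.2.2.2.2 hA.2.2.2.1 hTop
      (by have := hB.2.2.2.1; have := hA.2.2.1; norm_num at *; linarith)
      (by push_cast at h1; linarith) (by linarith) (by linarith) (by omega) (by omega)
  · -- B,B
    left; omega
  · -- B,C
    right
    have e3 : w3 = 0 := by omega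
    subst e3
    exact pair_BC ha hb hc hA hB hTop h1 h2 (by simpa using h3) (by omega) (by omega) hne
  · -- C,0
    right
    have e1 : w1 = 0 := by omega
    subst e1
    rw [Fsum_comm]
    exact pair_23 (w2 := w2) (w3 := w3) hb ha hc hB.2.2.2.2 hA.2.2.2.1 hTop
      (by have := hB.2.2.2.1; have := hA.2.2.1; norm_num at *; linarith)
      (by push_cast at h1; linarith) (by linarith) (by linarith) (by omega) (by omega)
  · -- C,A
    right
    have e2 : w2 = 0 := by omega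
    subst e2
    rw [Fsum_comm]
    exact pair_13 (w1 := w1) (w3 := w3) hb ha hc hB.2.2.2.2 hA.2.2.2.1 hTop
      (by have := hB.2.2.1; have := hA.2.1; norm_num at *; linarith)
      (by linarith) (by push_cast at h2; linarith) (by linarith) (by omega) (by omega)
  · -- C,B
    right
    have e3 : w3 = 0 := by omega
    subst e3
    rw [Fsum_comm]
    exact pair_BC (w1 := w1) (w2 := w2) hb ha hc hB hA hTop (by linarith) (by linarith) (by push_cast at h3; linarith)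
      (by omega) (by omega) hne'
  · -- C,C
    left; omega

end Vale.Agent.Lib.P057R3
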