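import Vale.Agent.Lib.P057R3.Poly

namespace Vale.Agent.Lib.P057R3

open Finset

lemma nodeOK_spec {D G : ℕ} {P : Poly} {i k : ℕ} (h : nodeOK D G P i k = true) :
    hiOK G P.hi i k = true ∧ nodeLo D G P.lo i k ≤ nodeHi D G P.hi i k := by
  unfold nodeOK at h
  cases hb : hiOK G P.hi i k
  · simp [hb] at h
  · simp only [hb, cond_true] at h
    exact ⟨rfl, Nat.le_of_ble_eq_true h⟩

/-- The four node values, as reals, of a cell. -/
noncomputable def nv (D : ℕ) (f : ℕ → ℕ → ℕ) (i k : ℕ) (r s : ℝ) : ℝ :=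
  bil r s ((f i k : ℝ) / D) ((f (i + 1) k : ℝ) / D) ((f i (k + 1) : ℝ) / D)
    ((f (i + 1) (k + 1) : ℝ) / D)

/-- Soundness of a cell. -/
lemma cell_sound {D G : ℕ} (hD : 0 < D) (hG : 0 < G) {P : Poly} {i k : ℕ}
    (hα : (∀ C ∈ P.hi, 0 < C.α) ∧ (∀ C ∈ P.lo, 0 < C.α))
    (h00 : nodeOK D G P i k = true) (h10 : nodeOK D G P (i + 1) k = true)
    (h01 : nodeOK D G P i (k + 1) = true) (h11 : nodeOK D G P (i + 1) (k + 1) = true)
    {r s : ℝ} (hr0 : 0 ≤ r) (hr1 : r ≤ 1) (hs0 : 0 ≤ s) (hs1 : s ≤ 1) {x : ℝ}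
    (hx0 : nv D (nodeLo D G P.lo) i k r s ≤ x) (hx1 : x ≤ nv D (nodeHi D G P.hi) i k r s) :
    InPoly P x (((i : ℝ) + r) / G) (((k : ℝ) + s) / G) := by
  constructor
  · intro C hC
    have hαC := hα.1 C hC
    have hαr : (0 : ℝ) < C.α := by exact_mod_cast hαC
    have f00 := node_hi_sound hD hG (nodeOK_spec h00).1 hC hαC
    have f10 := node_hi_sound hD hG (nodeOK_spec h10).1 hC hαC
    have f01 := node_hi_sound hD hG (nodeOK_spec h01).1 hC hαC
    have f11 := node_hi_sound hD hG (nodeOK_spec h11).1 hC hαC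
    push_cast at f10 f01 f11
    have key := bil_nonpos hr0 hr1 hs0 hs1 (sub_nonpos.2 f00) (sub_nonpos.2 f10)
      (sub_nonpos.2 f01) (sub_nonpos.2 f11)
    have e : bil r s
        ((C.α : ℝ) * ((nodeHi D G P.hi i k : ℝ) / D) + C.β * ((i : ℝ) / G) + C.γ * ((k : ℝ) / G) -
          (C.τ + C.γ' * ((k : ℝ) / G)))
        ((C.α : ℝ) * ((nodeHi D G P.hi (i + 1) k : ℝ) / D) + C.β * (((i : ℝ) + 1) / G) +
          C.γ * ((k : ℝ) / G) - (C.τ + C.γ' * ((k : ℝ) / G)))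
        ((C.α : ℝ) * ((nodeHi D G P.hi i (k + 1) : ℝ) / D) + C.β * ((i : ℝ) / G) +
          C.γ * (((k : ℝ) + 1) / G) - (C.τ + C.γ' * (((k : ℝ) + 1) / G)))
        ((C.α : ℝ) * ((nodeHi D G P.hi (i + 1) (k + 1) : ℝ) / D) + C.β * (((i : ℝ) + 1) / G) +
          C.γ * (((k : ℝ) + 1) / G) - (C.τ + C.γ' * (((k : ℝ) + 1) / G))) =
        (C.α : ℝ) * nv D (nodeHi D G P.hi) i k r s +
        C.β * (((i : ℝ) + r) / G) + C.γ * (((k : ℝ) + s) / G) -
        (C.τ + C.γ' * (((k : ℝ) + s) / G)) := by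
      unfold nv bil
      ring
    rw [e] at key
    have h3 : (C.α : ℝ) * x ≤ C.α * nv D (nodeHi D G P.hi) i k r s :=
      mul_le_mul_of_nonneg_left hx1 hαr.le
    linarith
  · intro C hC
    have hαC := hα.2 C hC
    have hαr : (0 : ℝ) < C.α := by exact_mod_cast hαC
    have f00 := node_lo_sound (i := i) (k := k) hD hG hC hαC
    have f10 := node_lo_sound (i := i + 1) (k := k) hD hG hC hαC
    have f01 := node_lo_sound (i := i) (k := k + 1) hD hG hC hαC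
    have f11 := node_lo_sound (i := i + 1) (k := k + 1) hD hG hC hαC
    push_cast at f10 f01 f11
    have key := bil_nonpos hr0 hr1 hs0 hs1 (sub_nonpos.2 f00) (sub_nonpos.2 f10)
      (sub_nonpos.2 f01) (sub_nonpos.2 f11)
    have e : bil r s
        ((C.τ : ℝ) - ((C.α : ℝ) * ((nodeLo D G P.lo i k : ℝ) / D) + C.β * ((i : ℝ) / G) +
          C.γ * ((k : ℝ) / G)))
        ((C.τ : ℝ) - ((C.α : ℝ) * ((nodeLo D G P.lo (i + 1) k : ℝ) / D) +
          C.β * (((i : ℝ) + 1) / G) + C.γ * ((k : ℝ) / G)))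
        ((C.τ : ℝ) - ((C.α : ℝ) * ((nodeLo D G P.lo i (k + 1) : ℝ) / D) + C.β * ((i : ℝ) / G) +
          C.γ * (((k : ℝ) + 1) / G)))
        ((C.τ : ℝ) - ((C.α : ℝ) * ((nodeLo D G P.lo (i + 1) (k + 1) : ℝ) / D) +
          C.β * (((i : ℝ) + 1) / G) + C.γ * (((k : ℝ) + 1) / G))) =
        (C.τ : ℝ) - ((C.α : ℝ) * nv D (nodeLo D G P.lo) i k r s +
        C.β * (((i : ℝ) + r) / G) + C.γ * (((k : ℝ) + s) / G)) := by
      unfold nv bil
      ring
    rw [e] at key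
    have h3 : (C.α : ℝ) * nv D (nodeLo D G P.lo) i k r s ≤ C.α * x :=
      mul_le_mul_of_nonneg_left hx0 hαr.le
    linarith

/-- The real value of a cell at a point: the interpolated length. -/
noncomputable def cellBil (D G : ℕ) (P : Option Poly) (i k : ℕ) (r s : ℝ) : ℝ :=
  match P with
  | none => 0
  | some P =>
    bif nodeOK D G P i k then
      bif nodeOK D G P (i + 1) k then
        bif nodeOK D G P i (k + 1) then
          bif nodeOK D G P (i + 1) (k + 1) then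
            nv D (nodeLen D G P) i k r s
          else 0
        else 0
      else 0
    else 0

/-- The digit triples of a parity class in a region. -/
noncomputable def TE (p1 p2 p3 e1 e2 e3 : ℕ) (Reg : ℝ → ℝ → ℝ → Prop) : Finset (ℕ × ℕ × ℕ) :=
  open Classical in
  ((range p1) ×ˢ (range p2) ×ˢ (range p3)).filter (fun a =>
    a.1 % 2 = e1 ∧ a.2.1 % 2 = e2 ∧ a.2.2 % 2 = e3 ∧
      Reg ((a.1 : ℝ) / p1) ((a.2.1 : ℝ) / p2) ((a.2.2 : ℝ) / p3))

/-- The double sum over the terms of a cell. -/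
lemma sum_cellBil {D G p2 p3 e2 e3 : ℕ} (hG : 0 < G) (hp2 : 0 < p2) (hp3 : 0 < p3)
    (he2 : e2 < 2) (he3 : e3 < 2)
    (hW2 : 0 ≤ apW G p2) (hW3 : 0 ≤ apW G p3) (P : Option Poly) (i k : ℕ) :
    ((apLen G p2 : ℝ) * apW G p2) * ((apLen G p3 : ℝ) * apW G p3) * ((cellVal D G P i k : ℝ) / D) ≤
      ∑ a ∈ range (apLen G p2), ∑ b ∈ range (apLen G p3),
        cellBil D G P i k (apPos G p2 e2 i a) (apPos G p3 e3 k b) := by
  set A : ℝ := (apLen G p2 : ℝ) * apW G p2 with hA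
  set B : ℝ := (apLen G p3 : ℝ) * apW G p3 with hB
  have hA0 : 0 ≤ A := mul_nonneg (by positivity) hW2
  have hB0 : 0 ≤ B := mul_nonneg (by positivity) hW3
  have zero_case : A * B * (((0 : ℕ) : ℝ) / D) ≤ ∑ a ∈ range (apLen G p2), ∑ b ∈ range (apLen G p3),
      (0 : ℝ) := by simp
  cases P with
  | none => simpa [cellVal, cellBil] using zero_case
  | some P =>
    simp only [cellVal, cellBil]
    cases h00 : nodeOK D G P i k
    · simpa using zero_case
    cases h10 : nodeOK D G P (i + 1) k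
    · simpa using zero_case
    cases h01 : nodeOK D G P i (k + 1)
    · simpa using zero_case
    cases h11 : nodeOK D G P (i + 1) (k + 1)
    · simpa using zero_case
    simp only [cond_true]
    unfold nv
    rw [sum_bil (fun a => apPos G p2 e2 i a) (fun b => apPos G p3 e3 k b)]
    have s1 := sum_apPos_ge G p2 e2 i hG hp2
    have s2 := sum_one_sub_apPos_ge G p2 e2 i hG he2 hp2
    have s3 := sum_apPos_ge G p3 e3 k hG hp3
    have s4 := sum_one_sub_apPos_ge G p3 e3 k hG he3 hp3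
    rw [← hA] at s1 s2
    rw [← hB] at s3 s4
    set v00 : ℝ := (nodeLen D G P i k : ℝ) / D with h0
    set v10 : ℝ := (nodeLen D G P (i + 1) k : ℝ) / D with h1
    set v01 : ℝ := (nodeLen D G P i (k + 1) : ℝ) / D with h2
    set v11 : ℝ := (nodeLen D G P (i + 1) (k + 1) : ℝ) / D with h3
    have p00 : 0 ≤ v00 := by positivity
    have p10 : 0 ≤ v10 := by positivity
    have p01 : 0 ≤ v01 := by positivity
    have p11 : 0 ≤ v11 := by positivity
    have e : A * B * (((nodeLen D G P i k + nodeLen D G P (i + 1) k + nodeLen D G P i (k + 1) +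
        nodeLen D G P (i + 1) (k + 1) : ℕ) : ℝ) / D) =
        A * B * v00 + A * B * v10 + A * B * v01 + A * B * v11 := by
      rw [h0, h1, h2, h3]
      push_cast
      ring
    rw [e]
    have t1 : A * B ≤ (∑ a ∈ range (apLen G p2), (1 - apPos G p2 e2 i a)) *
        (∑ b ∈ range (apLen G p3), (1 - apPos G p3 e3 k b)) :=
      mul_le_mul s2 s4 hB0 (hA0.trans s2)
    have t2 : A * B ≤ (∑ a ∈ range (apLen G p2), apPos G p2 e2 i a) *
        (∑ b ∈ range (apLen G p3), (1 - apPos G p3 e3 k b)) :=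
      mul_le_mul s1 s4 hB0 (hA0.trans s1)
    have t3 : A * B ≤ (∑ a ∈ range (apLen G p2), (1 - apPos G p2 e2 i a)) *
        (∑ b ∈ range (apLen G p3), apPos G p3 e3 k b) :=
      mul_le_mul s2 s3 hB0 (hA0.trans s2)
    have t4 : A * B ≤ (∑ a ∈ range (apLen G p2), apPos G p2 e2 i a) *
        (∑ b ∈ range (apLen G p3), apPos G p3 e3 k b) :=
      mul_le_mul s1 s3 hB0 (hA0.trans s1)
    have q1 := mul_le_mul_of_nonneg_right t1 p00
    have q2 := mul_le_mul_of_nonneg_right t2 p10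
    have q3 := mul_le_mul_of_nonneg_right t3 p01
    have q4 := mul_le_mul_of_nonneg_right t4 p11
    linarith

lemma nv_len {D G : ℕ} {P : Poly} {i k : ℕ} (r s : ℝ)
    (h00 : nodeOK D G P i k = true) (h10 : nodeOK D G P (i + 1) k = true)
    (h01 : nodeOK D G P i (k + 1) = true) (h11 : nodeOK D G P (i + 1) (k + 1) = true) :
    nv D (nodeLen D G P) i k r s =
      nv D (nodeHi D G P.hi) i k r s - nv D (nodeLo D G P.lo) i k r s := by
  have e00 : ((nodeLen D G P i k : ℕ) : ℝ) = nodeHi D G P.hi i k - nodeLo D G P.lo i k := by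
    unfold nodeLen
    rw [Nat.cast_sub (nodeOK_spec h00).2]
  have e10 : ((nodeLen D G P (i + 1) k : ℕ) : ℝ) =
      nodeHi D G P.hi (i + 1) k - nodeLo D G P.lo (i + 1) k := by
    unfold nodeLen
    rw [Nat.cast_sub (nodeOK_spec h10).2]
  have e01 : ((nodeLen D G P i (k + 1) : ℕ) : ℝ) =
      nodeHi D G P.hi i (k + 1) - nodeLo D G P.lo i (k + 1) := by
    unfold nodeLen
    rw [Nat.cast_sub (nodeOK_spec h01).2]
  have e11 : ((nodeLen D G P (i + 1) (k + 1) : ℕ) : ℝ) =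
      nodeHi D G P.hi (i + 1) (k + 1) - nodeLo D G P.lo (i + 1) (k + 1) := by
    unfold nodeLen
    rw [Nat.cast_sub (nodeOK_spec h11).2]
  unfold nv bil
  rw [e00, e10, e01, e11]
  ring

/-- The fibre over a pair of cell terms. -/
lemma fibre_bound {D G p1 e1 : ℕ} (hD : 0 < D) (hG : 0 < G) (hp1 : 0 < p1) (he1 : e1 < 2)
    {P : Poly} {i k : ℕ} {Reg : ℝ → ℝ → ℝ → Prop} {r s : ℝ}
    (hr0 : 0 ≤ r) (hr1 : r ≤ 1) (hs0 : 0 ≤ s) (hs1 : s ≤ 1)
    (hα : (∀ C ∈ P.hi, 0 < C.α) ∧ (∀ C ∈ P.lo, 0 < C.α))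
    (hR : ∀ x, InPoly P x (((i : ℝ) + r) / G) (((k : ℝ) + s) / G) →
      Reg x (((i : ℝ) + r) / G) (((k : ℝ) + s) / G))
    (h00 : nodeOK D G P i k = true) (h10 : nodeOK D G P (i + 1) k = true)
    (h01 : nodeOK D G P i (k + 1) = true) (h11 : nodeOK D G P (i + 1) (k + 1) = true) :
    nv D (nodeLen D G P) i k r s * p1 / 2 - 1 ≤ ((by classical exact ((range p1).filter (fun a =>
      a % 2 = e1 ∧ Reg ((a : ℝ) / p1) (((i : ℝ) + r) / G) (((k : ℝ) + s) / G))).card : ℕ) : ℝ) := by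
  classical
  rw [nv_len r s h00 h10 h01 h11]
  set Lo := nv D (nodeLo D G P.lo) i k r s with hLo
  set Hi := nv D (nodeHi D G P.hi) i k r s with hHi
  have hDr : (0 : ℝ) < D := by exact_mod_cast hD
  have l0 : 0 ≤ Lo := by
    have := bil_mono (v00 := 0) (v10 := 0) (v01 := 0) (v11 := 0)
      (u00 := (nodeLo D G P.lo i k : ℝ) / D) (u10 := (nodeLo D G P.lo (i + 1) k : ℝ) / D)
      (u01 := (nodeLo D G P.lo i (k + 1) : ℝ) / D)
      (u11 := (nodeLo D G P.lo (i + 1) (k + 1) : ℝ) / D) hr0 hr1 hs0 hs1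
      (by positivity) (by positivity) (by positivity) (by positivity)
    rw [bil_const] at this
    exact this
  have hdiv : ∀ a b : ℕ, a ≤ b → (a : ℝ) / D ≤ (b : ℝ) / D := by
    intro a b hab
    apply div_le_div_of_nonneg_right _ hDr.le
    exact_mod_cast hab
  have l1 : Lo ≤ Hi := bil_mono hr0 hr1 hs0 hs1 (hdiv _ _ (nodeOK_spec h00).2)
    (hdiv _ _ (nodeOK_spec h10).2) (hdiv _ _ (nodeOK_spec h01).2) (hdiv _ _ (nodeOK_spec h11).2)
  have hD1 : ∀ b : ℕ, b ≤ D → (b : ℝ) / D ≤ 1 := by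
    intro b hb
    rw [div_le_one hDr]
    exact_mod_cast hb
  have l2 : Hi ≤ 1 := by
    have := bil_mono (u00 := 1) (u10 := 1) (u01 := 1) (u11 := 1) hr0 hr1 hs0 hs1
      (hD1 _ (nodeHi_le_D D G P.hi i k)) (hD1 _ (nodeHi_le_D D G P.hi (i + 1) k))
      (hD1 _ (nodeHi_le_D D G P.hi i (k + 1))) (hD1 _ (nodeHi_le_D D G P.hi (i + 1) (k + 1)))
    rw [bil_const] at this
    exact this
  have h := fibre_card p1 e1 he1 hp1 l0 l1 l2
  refine h.trans ?_
  have hsub : (range p1).filter (fun a => a % 2 = e1 ∧ Lo ≤ (a : ℝ) / p1 ∧ (a : ℝ) / p1 ≤ Hi) ⊆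
      (range p1).filter (fun a =>
      a % 2 = e1 ∧ Reg ((a : ℝ) / p1) (((i : ℝ) + r) / G) (((k : ℝ) + s) / G)) := by
    intro a ha
    rw [mem_filter] at ha ⊢
    refine ⟨ha.1, ha.2.1, hR _ ?_⟩
    exact cell_sound hD hG hα h00 h10 h01 h11 hr0 hr1 hs0 hs1 ha.2.2.1 ha.2.2.2
  have := card_le_card hsub
  have h5 : ((((range p1).filter (fun a => a % 2 = e1 ∧ Lo ≤ (a : ℝ) / p1 ∧ (a : ℝ) / p1 ≤ Hi)).card : ℕ) : ℝ) ≤
      (((range p1).filter (fun a =>
      a % 2 = e1 ∧ Reg ((a : ℝ) / p1) (((i : ℝ) + r) / G) (((k : ℝ) + s) / G))).card : ℕ) := by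
    exact_mod_cast this
  convert h5 using 2

/-- The lower bound for one parity class. -/
theorem class_count {D G p1 p2 p3 e1 e2 e3 : ℕ} (hD : 0 < D) (hG : 0 < G) (hp1 : 0 < p1)
    (hp2 : 0 < p2) (hp3 : 0 < p3) (he1 : e1 < 2) (he2 : e2 < 2) (he3 : e3 < 2)
    (hW2 : 0 ≤ apW G p2) (hW3 : 0 ≤ apW G p3)
    (sel : ℕ → ℕ → Option Poly) {Reg : ℝ → ℝ → ℝ → Prop}
    (hα : ∀ i k P, sel i k = some P → (∀ C ∈ P.hi, 0 < C.α) ∧ (∀ C ∈ P.lo, 0 < C.α))
    (hsound : ∀ i k P x y z, sel i k = some P → i < G → k < G →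
      (i : ℝ) / G ≤ y → y < ((i : ℝ) + 1) / G → (k : ℝ) / G ≤ z → z < ((k : ℝ) + 1) / G →
      InPoly P x y z → Reg x y z) :
    (p1 : ℝ) / 2 * (((apLen G p2 : ℝ) * apW G p2) * ((apLen G p3 : ℝ) * apW G p3) *
        ((∑ i ∈ range G, ∑ k ∈ range G, (cellVal D G (sel i k) i k : ℝ)) / D)) -
      ((G : ℝ) * apLen G p2) * ((G : ℝ) * apLen G p3) ≤ ((TE p1 p2 p3 e1 e2 e3 Reg).card : ℝ) := by
  classical
  set n2 := apLen G p2 with hn2
  set n3 := apLen G p3 with hn3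
  set Idx : Finset ((ℕ × ℕ) × (ℕ × ℕ)) := (range G ×ˢ range n2) ×ˢ (range G ×ˢ range n3) with hIdx
  let A2 : ℕ → ℕ → ℕ := fun i j => apStart G p2 e2 i + 2 * j
  let A3 : ℕ → ℕ → ℕ := fun k j => apStart G p3 e3 k + 2 * j
  let Fib : (ℕ × ℕ) × (ℕ × ℕ) → Finset ℕ := fun w => (range p1).filter (fun a =>
    a % 2 = e1 ∧ Reg ((a : ℝ) / p1) ((A2 w.1.1 w.1.2 : ℝ) / p2) ((A3 w.2.1 w.2.2 : ℝ) / p3))
  have hp2r : (0 : ℝ) < p2 := by exact_mod_cast hp2
  have hp3r : (0 : ℝ) < p3 := by exact_mod_cast hp3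
  have hGr : (0 : ℝ) < G := by exact_mod_cast hG
  -- the injection
  have step1 : ∑ w ∈ Idx, (Fib w).card ≤ (TE p1 p2 p3 e1 e2 e3 Reg).card := by
    rw [← Finset.card_sigma]
    apply Finset.card_le_card_of_injOn
      (fun x => (x.2, A2 x.1.1.1 x.1.1.2, A3 x.1.2.1 x.1.2.2))
    · rintro ⟨⟨⟨i, j⟩, ⟨k, l⟩⟩, a⟩ hx
      simp only [coe_sigma, Set.mem_sigma_iff, mem_coe, hIdx, mem_product, mem_range, Fib,
        mem_filter] at hx
      obtain ⟨⟨⟨hi, hj⟩, hk, hl⟩, ha, hpar, hreg⟩ := hx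
      unfold TE
      simp only [coe_filter, Set.mem_setOf_eq, mem_product, mem_range]
      refine ⟨⟨ha, ?_, ?_⟩, hpar, ?_, ?_, hreg⟩
      · exact apTerm_lt_p G p2 e2 i j hG he2 hi hj
      · exact apTerm_lt_p G p3 e3 k l hG he3 hk hl
      · exact apStart_parity G p2 i he2 j
      · exact apStart_parity G p3 k he3 l
    · rintro ⟨⟨⟨i, j⟩, ⟨k, l⟩⟩, a⟩ hx ⟨⟨⟨i', j'⟩, ⟨k', l'⟩⟩, a'⟩ hx' h
      simp only [coe_sigma, Set.mem_sigma_iff, mem_coe, hIdx, mem_product, mem_range, Fib,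
        mem_filter] at hx hx'
      simp only [Prod.mk.injEq] at h
      obtain ⟨h1, h2, h3⟩ := h
      obtain ⟨e1', e2'⟩ := apTerm_inj G p2 e2 hG he2 hx.1.1.2 hx'.1.1.2 h2
      obtain ⟨e3', e4'⟩ := apTerm_inj G p3 e3 hG he3 hx.1.2.2 hx'.1.2.2 h3
      subst e1' e2' e3' e4' h1
      rfl
  -- the fibre bound
  set V : (ℕ × ℕ) × (ℕ × ℕ) → ℝ := fun w => cellBil D G (sel w.1.1 w.2.1) w.1.1 w.2.1
    (apPos G p2 e2 w.1.1 w.1.2) (apPos G p3 e3 w.2.1 w.2.2) with hV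
  have step2 : ∀ w ∈ Idx, V w * p1 / 2 - 1 ≤ ((Fib w).card : ℝ) := by
    rintro ⟨⟨i, j⟩, ⟨k, l⟩⟩ hw
    simp only [hIdx, mem_product, mem_range] at hw
    obtain ⟨⟨hi, hj⟩, hk, hl⟩ := hw
    have r0 : 0 ≤ apPos G p2 e2 i j := le_trans (by positivity) (apPos_nonneg G p2 e2 i j hG hp2)
    have r1 : apPos G p2 e2 i j < 1 := apPos_lt_one G p2 e2 i j hG he2 hj hp2
    have s0 : 0 ≤ apPos G p3 e3 k l := le_trans (by positivity) (apPos_nonneg G p3 e3 k l hG hp3)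
    have s1 : apPos G p3 e3 k l < 1 := apPos_lt_one G p3 e3 k l hG he3 hl hp3
    have c2 := apPos_coord G p2 e2 i j hG hp2
    have c3 := apPos_coord G p3 e3 k l hG hp3
    simp only [hV]
    have triv : (0 : ℝ) * p1 / 2 - 1 ≤ ((Fib ((i, j), (k, l))).card : ℝ) := by
      have : (0 : ℝ) ≤ ((Fib ((i, j), (k, l))).card : ℝ) := by positivity
      linarith
    cases hs : sel i k with
    | none => simpa [cellBil] using triv
    | some P =>
      simp only [cellBil]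
      cases h00 : nodeOK D G P i k
      · simpa using triv
      cases h10 : nodeOK D G P (i + 1) k
      · simpa using triv
      cases h01 : nodeOK D G P i (k + 1)
      · simpa using triv
      cases h11 : nodeOK D G P (i + 1) (k + 1)
      · simpa using triv
      simp only [cond_true]
      have hR : ∀ x, InPoly P x (((i : ℝ) + apPos G p2 e2 i j) / G)
          (((k : ℝ) + apPos G p3 e3 k l) / G) →
          Reg x (((i : ℝ) + apPos G p2 e2 i j) / G) (((k : ℝ) + apPos G p3 e3 k l) / G) := by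
        intro x hx
        refine hsound i k P _ _ _ hs hi hk ?_ ?_ ?_ ?_ hx
        · exact div_le_div_of_nonneg_right (by linarith) hGr.le
        · exact div_lt_div_of_pos_right (by linarith) hGr
        · exact div_le_div_of_nonneg_right (by linarith) hGr.le
        · exact div_lt_div_of_pos_right (by linarith) hGr
      have := fibre_bound (e1 := e1) (p1 := p1) hD hG hp1 he1 r0 r1.le s0 s1.le (hα i k P hs) hR
        h00 h10 h01 h11
      refine this.trans (le_of_eq ?_)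
      congr 1
      simp only [Fib, A2, A3]
      rw [← c2, ← c3]
  -- summation
  have step3 : ∑ w ∈ Idx, (V w * p1 / 2 - 1) ≤ ((TE p1 p2 p3 e1 e2 e3 Reg).card : ℝ) := by
    have h1 : ∑ w ∈ Idx, (V w * p1 / 2 - 1) ≤ ∑ w ∈ Idx, ((Fib w).card : ℝ) :=
      sum_le_sum step2
    refine h1.trans ?_
    exact_mod_cast step1
  have hcard : ((Idx.card : ℕ) : ℝ) = ((G : ℝ) * n2) * ((G : ℝ) * n3) := by
    simp only [hIdx, card_product, card_range]
    push_cast
    ring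
  have hsum : ∑ w ∈ Idx, (V w * p1 / 2 - 1) = (∑ w ∈ Idx, V w) * p1 / 2 - ((G : ℝ) * n2) * ((G : ℝ) * n3) := by
    rw [sum_sub_distrib, sum_const, nsmul_eq_mul, mul_one, hcard, sum_mul, sum_div]
  rw [hsum] at step3
  -- the main sum
  set A : ℝ := (n2 : ℝ) * apW G p2 with hA
  set B : ℝ := (n3 : ℝ) * apW G p3 with hB
  have hVsum : A * B * ((∑ i ∈ range G, ∑ k ∈ range G, (cellVal D G (sel i k) i k : ℝ)) / D) ≤
      ∑ w ∈ Idx, V w := by
    have e : ∑ w ∈ Idx, V w = ∑ i ∈ range G, ∑ k ∈ range G, ∑ a ∈ range n2, ∑ b ∈ range n3,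
        cellBil D G (sel i k) i k (apPos G p2 e2 i a) (apPos G p3 e3 k b) := by
      rw [hIdx, sum_product, sum_product]
      refine sum_congr rfl fun i _ => ?_
      simp only [sum_product]
      rw [sum_comm]
    rw [e, sum_div]
    simp only [sum_div, mul_sum]
    refine sum_le_sum fun i _ => sum_le_sum fun k _ => ?_
    exact sum_cellBil hG hp2 hp3 he2 he3 hW2 hW3 _ i k
  have hp1r : (0 : ℝ) ≤ (p1 : ℝ) / 2 := by positivity
  have h6 := mul_le_mul_of_nonneg_left hVsum hp1r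
  have e2 : (p1 : ℝ) / 2 * ∑ w ∈ Idx, V w = (∑ w ∈ Idx, V w) * p1 / 2 := by ring
  linarith

end Vale.Agent.Lib.P057R3
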