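import Vale.Agent.Lib.P057R3.Kernel

namespace Vale.Agent.Lib.P057R3

open Finset

/-- The density of a block. -/
noncomputable def dens : ℝ := 12659 / 80000

/-- The lower bound for the sizes of the primes. -/
def P0 : ℕ := 100000000

lemma apLen_mul_W {G p : ℕ} (hG : 0 < G) (hp : 4 * G ≤ p) :
    (p : ℝ) / (4 * G) - 3 / 2 ≤ (apLen G p : ℝ) * apW G p ∧ 0 ≤ apW G p := by
  have hGr : (0 : ℝ) < G := by exact_mod_cast hG
  have hp0 : 0 < p := by omega
  have hpr : (0 : ℝ) < p := by exact_mod_cast hp0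
  have hpG : (4 : ℝ) * G ≤ p := by exact_mod_cast hp
  obtain ⟨h1, h2⟩ := apLen_real G p hG
  have hW : 0 ≤ apW G p := by
    unfold apW
    have : 2 * (G : ℝ) / p ≤ 1 / 2 := by
      rw [div_le_iff₀ hpr]
      linarith
    linarith
  refine ⟨?_, hW⟩
  have h3 : (p : ℝ) / (2 * G) - 1 ≤ apLen G p := by
    have : (p : ℝ) / (2 * G) ≤ apLen G p + 1 := by
      rw [div_le_iff₀ (by positivity)]
      linarith
    linarith
  have h4 := mul_le_mul_of_nonneg_right h3 hW
  refine le_trans ?_ h4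
  unfold apW
  have e : ((p : ℝ) / (2 * G) - 1) * (1 / 2 - 2 * (G : ℝ) / p) =
      (p : ℝ) / (4 * G) - 3 / 2 + 2 * (G : ℝ) / p := by
    field_simp
    ring
  rw [e]
  have : 0 ≤ 2 * (G : ℝ) / p := by positivity
  linarith

/-- The arithmetic of the density bound. -/
lemma density_arith {x y z A B n2 n3 T : ℝ} (x1 : 100000000 ≤ x) (x2 : 100000000 ≤ y) (x3 : 100000000 ≤ z)
    (hS : 21748335511 ≤ T) (a2 : y / (4 * 64) - 3 / 2 ≤ A) (a3 : z / (4 * 64) - 3 / 2 ≤ B)
    (l2 : 2 * 64 * n2 ≤ y) (l3 : 2 * 64 * n3 ≤ z) (n20 : 0 ≤ n2) (n30 : 0 ≤ n3) :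
    dens * (x * y * z) ≤ x / 2 * (A * B * (T / 1048576)) - 4 * ((64 * n2) * (64 * n3)) := by
  set c : ℝ := 781247 / 200000000 with hc
  have hc0 : 0 < c := by rw [hc]; norm_num
  have A1 : c * y ≤ A := by
    refine le_trans ?_ a2
    rw [hc]
    norm_num at x2 ⊢
    linarith
  have B1 : c * z ≤ B := by
    refine le_trans ?_ a3
    rw [hc]
    norm_num at x3 ⊢
    linarith
  have y0 : 0 < y := by linarith
  have z0 : 0 < z := by linarith
  have x0 : 0 < x := by linarith
  have hAB : (c * y) * (c * z) ≤ A * B :=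
    mul_le_mul A1 B1 (by positivity) (le_trans (by positivity) A1)
  have hsig : (21748335511 : ℝ) / 1048576 ≤ T / 1048576 :=
    div_le_div_of_nonneg_right hS (by norm_num)
  have hmain2 : (c * y) * (c * z) * (21748335511 / 1048576) ≤ A * B * (T / 1048576) :=
    mul_le_mul hAB hsig (by norm_num) (le_trans (by positivity) hAB)
  have hmain3 : x / 2 * ((c * y) * (c * z) * (21748335511 / 1048576)) ≤
      x / 2 * (A * B * (T / 1048576)) :=
    mul_le_mul_of_nonneg_left hmain2 (by positivity)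
  have hsub : 4 * ((64 * n2) * (64 * n3)) ≤ y * z := by
    have h5 : 64 * n2 ≤ y / 2 := by linarith
    have h6 : 64 * n3 ≤ z / 2 := by linarith
    have h7 := mul_le_mul h5 h6 (by positivity) (by positivity)
    nlinarith
  have hyz : y * z * 100000000 ≤ x * y * z := by
    have : 0 < y * z := by positivity
    nlinarith
  have hfinal : dens * (x * y * z) ≤ x / 2 * ((c * y) * (c * z) * (21748335511 / 1048576)) - y * z := by
    have e1 : x / 2 * ((c * y) * (c * z) * (21748335511 / 1048576)) =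
        (x * y * z) * (c ^ 2 * (21748335511 / 1048576) / 2) := by ring
    rw [e1]
    have e2 : y * z ≤ (x * y * z) * (1 / 100000000) := by
      linarith
    have hxyz : 0 < x * y * z := by positivity
    have e3 : dens ≤ c ^ 2 * (21748335511 / 1048576) / 2 - 1 / 100000000 := by
      unfold dens
      rw [hc]
      norm_num
    have e4 := mul_le_mul_of_nonneg_left e3 hxyz.le
    nlinarith
  linarith

/-- The density bound for the digit region. -/
theorem TN_density {p1 p2 p3 : ℕ} (h1 : P0 ≤ p1) (h2 : P0 ≤ p2) (h3 : P0 ≤ p3) :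
    dens * ((p1 * p2 * p3 : ℕ) : ℝ) ≤ (TN p1 p2 p3).card := by
  have hP0 : P0 = 100000000 := rfl
  rw [hP0] at h1 h2 h3
  have hG : gridG = 64 := rfl
  have hD : gridD = 1048576 := rfl
  have hG0 : 0 < gridG := by rw [hG]; norm_num
  have hp1 : 0 < p1 := by omega
  have hp2 : 0 < p2 := by omega
  have hp3 : 0 < p3 := by omega
  have g2 : 4 * gridG ≤ p2 := by rw [hG]; omega
  have g3 : 4 * gridG ≤ p3 := by rw [hG]; omega
  obtain ⟨a2, w2⟩ := apLen_mul_W hG0 g2
  obtain ⟨a3, w3⟩ := apLen_mul_W hG0 g3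
  have hmain := TN_card_bound hp1 hp2 hp3 w2 w3
  have hSn : 21748335511 ≤ gridTotal := gridTotal_ge
  have hS : ((21748335511 : ℕ) : ℝ) ≤ (gridTotal : ℝ) := Nat.cast_le.2 hSn
  have hGr : (gridG : ℝ) = 64 := by rw [hG]; norm_num
  have hDr : (gridD : ℝ) = 1048576 := by rw [hD]; norm_num
  have x1 : (100000000 : ℝ) ≤ p1 := by exact_mod_cast h1
  have x2 : (100000000 : ℝ) ≤ p2 := by exact_mod_cast h2
  have x3 : (100000000 : ℝ) ≤ p3 := by exact_mod_cast h3
  obtain ⟨l2, -⟩ := apLen_real gridG p2 hG0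
  obtain ⟨l3, -⟩ := apLen_real gridG p3 hG0
  rw [hGr] at a2 a3 l2 l3 hmain
  rw [hDr] at hmain
  have hS' : (21748335511 : ℝ) ≤ (gridTotal : ℝ) := by
    refine le_trans (le_of_eq ?_) hS
    norm_num
  have key := density_arith x1 x2 x3 hS' a2 a3 l2 l3 (Nat.cast_nonneg _) (Nat.cast_nonneg _)
  have ecast : ((p1 * p2 * p3 : ℕ) : ℝ) = (p1 : ℝ) * p2 * p3 := by
    push_cast
    rfl
  rw [ecast]
  exact key.trans hmain

end Vale.Agent.Lib.P057R3
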