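import Vale.Agent.Lib.P057R3.Sound

namespace Vale.Agent.Lib.P057R3

open Finset

lemma rowSum_cast (sel : ℕ → ℕ → Option Poly) (i K : ℕ) :
    ((rowSum sel i K : ℕ) : ℝ) = ∑ k ∈ range K, (cellVal gridD gridG (sel i k) i k : ℝ) := by
  induction K with
  | zero => simp [rowSum]
  | succ K ih =>
    rw [sum_range_succ, ← ih]
    simp [rowSum]

lemma gridSum_cast (sel : ℕ → ℕ → Option Poly) (I : ℕ) :
    ((gridSum sel I : ℕ) : ℝ) =
      ∑ i ∈ range I, ∑ k ∈ range gridG, (cellVal gridD gridG (sel i k) i k : ℝ) := by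
  induction I with
  | zero => simp [gridSum]
  | succ I ih =>
    rw [sum_range_succ, ← ih, ← rowSum_cast]
    simp [gridSum]

/-- The digit triples in the digit region. -/
noncomputable def TN (p1 p2 p3 : ℕ) : Finset (ℕ × ℕ × ℕ) :=
  open Classical in
  ((range p1) ×ˢ (range p2) ×ˢ (range p3)).filter (fun a =>
    InS (a.1 % 2) (a.2.1 % 2) (a.2.2 % 2) ((a.1 : ℝ) / p1) ((a.2.1 : ℝ) / p2) ((a.2.2 : ℝ) / p3))

/-- The digit triples are the disjoint union of the four classes. -/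
lemma TN_card_ge (p1 p2 p3 : ℕ) :
    ((TE p1 p2 p3 0 0 0 R0).card : ℝ) + (TE p1 p2 p3 1 1 0 RA).card +
      (TE p1 p2 p3 1 0 1 RB).card + (TE p1 p2 p3 0 1 1 RC).card ≤ (TN p1 p2 p3).card := by
  classical
  have hsub : ((((TE p1 p2 p3 0 0 0 R0) ∪ (TE p1 p2 p3 1 1 0 RA)) ∪ (TE p1 p2 p3 1 0 1 RB)) ∪
      (TE p1 p2 p3 0 1 1 RC)) ⊆ TN p1 p2 p3 := by
    intro a ha
    simp only [mem_union] at ha
    unfold TE at ha
    unfold TN
    simp only [mem_filter] at ha ⊢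
    rcases ha with ((ha | ha) | ha) | ha
    · exact ⟨ha.1, Or.inl ⟨ha.2.1, ha.2.2.1, ha.2.2.2.1, ha.2.2.2.2⟩⟩
    · exact ⟨ha.1, Or.inr (Or.inl ⟨ha.2.1, ha.2.2.1, ha.2.2.2.1, ha.2.2.2.2⟩)⟩
    · exact ⟨ha.1, Or.inr (Or.inr (Or.inl ⟨ha.2.1, ha.2.2.1, ha.2.2.2.1, ha.2.2.2.2⟩))⟩
    · exact ⟨ha.1, Or.inr (Or.inr (Or.inr ⟨ha.2.1, ha.2.2.1, ha.2.2.2.1, ha.2.2.2.2⟩))⟩
  have h1 := card_le_card hsub
  have d1 : Disjoint (TE p1 p2 p3 0 0 0 R0) (TE p1 p2 p3 1 1 0 RA) := by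
    rw [disjoint_left]
    intro a ha hb
    unfold TE at ha hb
    simp only [mem_filter] at ha hb
    omega
  have d2 : Disjoint (TE p1 p2 p3 0 0 0 R0 ∪ TE p1 p2 p3 1 1 0 RA) (TE p1 p2 p3 1 0 1 RB) := by
    rw [disjoint_left]
    intro a ha hb
    simp only [mem_union] at ha
    unfold TE at ha hb
    simp only [mem_filter] at ha hb
    omega
  have d3 : Disjoint ((TE p1 p2 p3 0 0 0 R0 ∪ TE p1 p2 p3 1 1 0 RA) ∪ TE p1 p2 p3 1 0 1 RB)
      (TE p1 p2 p3 0 1 1 RC) := by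
    rw [disjoint_left]
    intro a ha hb
    simp only [mem_union] at ha
    unfold TE at ha hb
    simp only [mem_filter] at ha hb
    omega
  rw [card_union_of_disjoint d3, card_union_of_disjoint d2, card_union_of_disjoint d1] at h1
  exact_mod_cast h1

/-- The value of the grid sum, computed by the kernel. -/
def gridTotal : ℕ := gridSum sel0 gridG + gridSum selA gridG + gridSum selB gridG + gridSum selC gridG

/-- The main count, in terms of the grid total. -/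
theorem TN_card_bound {p1 p2 p3 : ℕ} (hp1 : 0 < p1) (hp2 : 0 < p2) (hp3 : 0 < p3)
    (hW2 : 0 ≤ apW gridG p2) (hW3 : 0 ≤ apW gridG p3) :
    (p1 : ℝ) / 2 * (((apLen gridG p2 : ℝ) * apW gridG p2) * ((apLen gridG p3 : ℝ) * apW gridG p3) *
        ((gridTotal : ℝ) / gridD)) -
      4 * (((gridG : ℝ) * apLen gridG p2) * ((gridG : ℝ) * apLen gridG p3)) ≤
      ((TN p1 p2 p3).card : ℝ) := by
  have hD : 0 < gridD := by norm_num [gridD]
  have hG : 0 < gridG := by norm_num [gridG]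
  have h0 := class_count (e1 := 0) (e2 := 0) (e3 := 0) hD hG hp1 hp2 hp3 (by norm_num) (by norm_num)
    (by norm_num) hW2 hW3 sel0 sel0_pos sel0_sound
  have hA := class_count (e1 := 1) (e2 := 1) (e3 := 0) hD hG hp1 hp2 hp3 (by norm_num) (by norm_num)
    (by norm_num) hW2 hW3 selA selA_pos selA_sound
  have hB := class_count (e1 := 1) (e2 := 0) (e3 := 1) hD hG hp1 hp2 hp3 (by norm_num) (by norm_num)
    (by norm_num) hW2 hW3 selB selB_pos selB_sound
  have hC := class_count (e1 := 0) (e2 := 1) (e3 := 1) hD hG hp1 hp2 hp3 (by norm_num) (by norm_num)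
    (by norm_num) hW2 hW3 selC selC_pos selC_sound
  rw [← gridSum_cast] at h0 hA hB hC
  have hT := TN_card_ge p1 p2 p3
  have e : ((gridTotal : ℕ) : ℝ) = (gridSum sel0 gridG : ℝ) + gridSum selA gridG +
      gridSum selB gridG + gridSum selC gridG := by
    unfold gridTotal
    push_cast
    ring
  rw [e]
  set A : ℝ := ((apLen gridG p2 : ℝ) * apW gridG p2) * ((apLen gridG p3 : ℝ) * apW gridG p3)
  set B : ℝ := ((gridG : ℝ) * apLen gridG p2) * ((gridG : ℝ) * apLen gridG p3)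
  have e2 : (p1 : ℝ) / 2 * (A * (((gridSum sel0 gridG : ℝ) + gridSum selA gridG +
      gridSum selB gridG + gridSum selC gridG) / gridD)) =
      (p1 : ℝ) / 2 * (A * ((gridSum sel0 gridG : ℝ) / gridD)) +
      (p1 : ℝ) / 2 * (A * ((gridSum selA gridG : ℝ) / gridD)) +
      (p1 : ℝ) / 2 * (A * ((gridSum selB gridG : ℝ) / gridD)) +
      (p1 : ℝ) / 2 * (A * ((gridSum selC gridG : ℝ) / gridD)) := by
    ring
  rw [e2]
  linarith

end Vale.Agent.Lib.P057R3
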