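import Vale.Agent.Lib.P057R3.Cert
import Vale.Agent.Lib.P057R3.Total

namespace Vale.Agent.Lib.P057R3

open Finset

/-- The normalised digit. -/
noncomputable def nd {p : ℕ} (u : ZMod p) : ℝ := (ZMod.val u : ℝ) / p

section OneDigit

variable {p : ℕ} [NeZero p]

lemma nd_nonneg (u : ZMod p) : 0 ≤ nd u := by
  unfold nd
  positivity

lemma nd_lt_one (u : ZMod p) : nd u < 1 := by
  unfold nd
  have hp : (0 : ℝ) < p := by exact_mod_cast NeZero.pos p
  rw [div_lt_one hp]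
  exact_mod_cast ZMod.val_lt u

lemma nd_ne_half (hodd : p % 2 = 1) (u : ZMod p) : nd u ≠ 1 / 2 := by
  unfold nd
  have hp : (0 : ℝ) < p := by exact_mod_cast NeZero.pos p
  intro h
  rw [div_eq_iff hp.ne'] at h
  have h2 : 2 * (ZMod.val u : ℝ) = p := by linarith
  have h3 : 2 * ZMod.val u = p := by exact_mod_cast h2
  omega

/-- The wrap of a digit triple. -/
lemma digit_wrap (hodd : p % 2 = 1) (u v : ZMod p) :
    ∃ w : ℤ, nd u + nd (u + 2 * v) - 2 * nd (u + v) = w ∧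
      (w + ((ZMod.val u % 2 : ℕ) : ℤ) + ((ZMod.val (u + 2 * v) % 2 : ℕ) : ℤ)) % 2 = 0 ∧
      (w = 0 → v ≠ 0 → ∀ P : ℕ, p ≤ P → 1 / (P : ℝ) ^ 2 ≤ (nd u - nd (u + 2 * v)) ^ 2) := by
  have hp0 : 0 < p := NeZero.pos p
  have hp : (0 : ℝ) < p := by exact_mod_cast hp0
  set A : ℕ := ZMod.val u with hA
  set C : ℕ := ZMod.val (u + v) with hC
  set B : ℕ := ZMod.val (u + 2 * v) with hB
  have hdvd : (p : ℤ) ∣ (A : ℤ) + B - 2 * C := by
    rw [← ZMod.intCast_zmod_eq_zero_iff_dvd]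
    push_cast
    rw [hA, hB, hC]
    simp only [ZMod.natCast_val, ZMod.cast_id', id]
    ring
  obtain ⟨w, hw⟩ := hdvd
  refine ⟨w, ?_, ?_, ?_⟩
  · unfold nd
    rw [← hA, ← hB, ← hC]
    have h1 : ((A : ℤ) + B - 2 * C : ℤ) = ((p : ℤ) * w) := hw
    have h2 : ((A : ℝ) + B - 2 * C) = (p : ℝ) * w := by exact_mod_cast h1
    field_simp
    linarith
  · obtain ⟨r, hr⟩ : ∃ r, p = 2 * r + 1 := ⟨p / 2, by omega⟩
    have h3 : (p : ℤ) * w = 2 * ((r : ℤ) * w) + w := by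
      rw [hr]
      push_cast
      ring
    rw [h3] at hw
    omega
  · intro hw0 hv P hP
    subst hw0
    simp only [mul_zero] at hw
    have hne : A ≠ B := by
      intro hab
      have h1 : A = C := by omega
      have h2 : u = u + v := ZMod.val_injective p h1
      apply hv
      have h3 : u + 0 = u + v := by simpa using h2
      exact (add_left_cancel h3).symm
    have h4 : (1 : ℝ) ≤ ((A : ℝ) - B) ^ 2 := by
      have h5 : (1 : ℤ) ≤ ((A : ℤ) - B) ^ 2 := by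
        have h6 : (A : ℤ) - B ≠ 0 := by omega
        have := Int.one_le_abs h6
        have h7 : (A : ℤ) - B ≤ -1 ∨ 1 ≤ (A : ℤ) - B := by omega
        rcases h7 with h7 | h7 <;> nlinarith
      exact_mod_cast h5
    have h8 : (nd u - nd (u + 2 * v)) ^ 2 = ((A : ℝ) - B) ^ 2 / (p : ℝ) ^ 2 := by
      unfold nd
      rw [← hA, ← hB]
      field_simp
    rw [h8]
    have hPr : (p : ℝ) ≤ P := by exact_mod_cast hP
    have hP0 : (0 : ℝ) < P := lt_of_lt_of_le hp hPr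
    have h9 : (p : ℝ) ^ 2 ≤ (P : ℝ) ^ 2 := by
      apply pow_le_pow_left₀ hp.le hPr
    calc 1 / (P : ℝ) ^ 2 ≤ 1 / (p : ℝ) ^ 2 := by
          apply one_div_le_one_div_of_le (by positivity) h9
      _ ≤ ((A : ℝ) - B) ^ 2 / (p : ℝ) ^ 2 := by
          apply div_le_div_of_nonneg_right h4 (by positivity)

end OneDigit

section Block

variable {p1 p2 p3 : ℕ} [NeZero p1] [NeZero p2] [NeZero p3]

/-- A digit triple as an element of the product ring. -/
abbrev ZZ (p1 p2 p3 : ℕ) : Type := (ZMod p1 × ZMod p2) × ZMod p3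

/-- Membership in the digit region. -/
def InZ (u : ZZ p1 p2 p3) : Prop :=
  InS (ZMod.val u.1.1 % 2) (ZMod.val u.1.2 % 2) (ZMod.val u.2 % 2) (nd u.1.1) (nd u.1.2) (nd u.2)

/-- The value of the real certificate. -/
noncomputable def FR (u : ZZ p1 p2 p3) : ℝ := Fn (nd u.1.1) (nd u.1.2) (nd u.2)

/-- The integer certificate with scale `P`. -/
noncomputable def FZ (P : ℕ) (u : ZZ p1 p2 p3) : ℤ := ⌊8 * (P : ℝ) ^ 2 * FR u⌋

lemma FR_abs_le (u : ZZ p1 p2 p3) : |FR u| ≤ (FMax : ℝ) := by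
  unfold FR Fn FMax
  have a0 := nd_nonneg u.1.1
  have a1 := nd_lt_one u.1.1
  have b0 := nd_nonneg u.1.2
  have b1 := nd_lt_one u.1.2
  have c0 := nd_nonneg u.2
  have c1 := nd_lt_one u.2
  set x := nd u.1.1
  set y := nd u.1.2
  set z := nd u.2
  have h1 : (x + y + z) ^ 2 ≤ 9 := by nlinarith
  have h2 : (2 - x - y) ^ 2 ≤ 4 := by nlinarith
  have h3 : x ^ 2 + y ^ 2 + z ^ 2 ≤ 3 := by nlinarith
  have h4 := sq_nonneg (x + y + z)
  have h5 := sq_nonneg (2 - x - y)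
  have h6 : 0 ≤ x ^ 2 + y ^ 2 + z ^ 2 := by positivity
  rw [abs_le]
  push_cast
  constructor <;> linarith

lemma FZ_abs_le {P : ℕ} (hP : 1 ≤ P) (u : ZZ p1 p2 p3) :
    |FZ P u| ≤ (((8 * FMax + 1) * P ^ 2 : ℕ) : ℤ) := by
  unfold FZ
  have hPr : (1 : ℝ) ≤ P := by exact_mod_cast hP
  have hP2 : (1 : ℝ) ≤ (P : ℝ) ^ 2 := one_le_pow₀ hPr
  have h := FR_abs_le u
  rw [abs_le] at h
  set M : ℝ := 8 * (P : ℝ) ^ 2 with hM
  have hM0 : 0 < M := by positivity
  have u1 : M * FR u ≤ M * FMax := mul_le_mul_of_nonneg_left h.2 hM0.le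
  have u2 : M * (-(FMax : ℝ)) ≤ M * FR u := mul_le_mul_of_nonneg_left h.1 hM0.le
  have f1 := Int.floor_le (M * FR u)
  have f2 := Int.lt_floor_add_one (M * FR u)
  have hF : (0 : ℝ) ≤ FMax := by positivity
  have hbd : ((((8 * FMax + 1) * P ^ 2 : ℕ) : ℤ) : ℝ) = (8 * FMax + 1) * (P : ℝ) ^ 2 := by
    push_cast
    ring
  rw [abs_le]
  constructor
  · have : (((-(((8 * FMax + 1) * P ^ 2 : ℕ) : ℤ) : ℤ)) : ℝ) ≤ ((⌊M * FR u⌋ : ℤ) : ℝ) := by
      push_cast at hbd ⊢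
      rw [hbd]
      nlinarith
    exact_mod_cast this
  · have : ((⌊M * FR u⌋ : ℤ) : ℝ) ≤ (((((8 * FMax + 1) * P ^ 2 : ℕ) : ℤ)) : ℝ) := by
      rw [hbd]
      nlinarith
    exact_mod_cast this

/-- The certificate on the product ring. -/
theorem FZ_cert (h1 : p1 % 2 = 1) (h2 : p2 % 2 = 1) (h3 : p3 % 2 = 1) {P : ℕ} (hP1 : p1 ≤ P)
    (hP2 : p2 ≤ P) (hP3 : p3 ≤ P) (a d : ZZ p1 p2 p3) (ha : InZ a) (hc : InZ (a + d))
    (hb : InZ (a + 2 * d)) :
    0 ≤ FZ P a + FZ P (a + 2 * d) - 2 * FZ P (a + d) ∧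
      (FZ P a + FZ P (a + 2 * d) - 2 * FZ P (a + d) = 0 → d = 0) := by
  by_cases hd : d = 0
  · subst hd
    simp only [mul_zero, add_zero]
    constructor
    · linarith
    · intro _
      trivial
  have hPpos : 1 ≤ P := by
    have : 0 < p1 := NeZero.pos p1
    omega
  have hPr : (1 : ℝ) ≤ P := by exact_mod_cast hPpos
  suffices hpos : 0 < FZ P a + FZ P (a + 2 * d) - 2 * FZ P (a + d) by
    exact ⟨hpos.le, fun h => by omega⟩
  -- the digit data
  obtain ⟨w1, e1, q1, t1⟩ := digit_wrap h1 a.1.1 d.1.1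
  obtain ⟨w2, e2, q2, t2⟩ := digit_wrap h2 a.1.2 d.1.2
  obtain ⟨w3, e3, q3, t3⟩ := digit_wrap h3 a.2 d.2
  have ec1 : (a + d).1.1 = a.1.1 + d.1.1 := rfl
  have ec2 : (a + d).1.2 = a.1.2 + d.1.2 := rfl
  have ec3 : (a + d).2 = a.2 + d.2 := rfl
  have eb1 : (a + 2 * d).1.1 = a.1.1 + 2 * d.1.1 := by simp
  have eb2 : (a + 2 * d).1.2 = a.1.2 + 2 * d.1.2 := by simp
  have eb3 : (a + 2 * d).2 = a.2 + 2 * d.2 := by simp
  -- the real certificate
  set M : ℝ := 8 * (P : ℝ) ^ 2 with hM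
  have hM0 : 0 < M := by positivity
  set S : ℝ := FR a + FR (a + 2 * d) - 2 * FR (a + d) with hS
  have hSFsum : S = Fsum (nd a.1.1) (nd a.1.2) (nd a.2) (nd (a + 2 * d).1.1) (nd (a + 2 * d).1.2)
      (nd (a + 2 * d).2) (nd (a + d).1.1) (nd (a + d).1.2) (nd (a + d).2) := rfl
  have hkey : 2 ≤ M * S := by
    have box : ∀ u : ZZ p1 p2 p3, Box (nd u.1.1) (nd u.1.2) (nd u.2) := fun u =>
      ⟨nd_nonneg _, nd_lt_one _, nd_nonneg _, nd_lt_one _, nd_nonneg _, nd_lt_one _⟩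
    have hcert := cert_real (box a) (box (a + 2 * d)) (box (a + d)) ha hb hc.top
      (w1 := w1) (w2 := w2) (w3 := w3)
      (by rw [eb1, ec1]; exact e1) (by rw [eb2, ec2]; exact e2) (by rw [eb3, ec3]; exact e3)
      (by rw [eb1]; exact_mod_cast q1) (by rw [eb2]; exact_mod_cast q2)
      (by rw [eb3]; exact_mod_cast q3) (nd_ne_half h2 _) (nd_ne_half h2 _)
    rw [← hSFsum] at hcert
    rcases hcert with ⟨rfl, rfl, rfl⟩ | hcert
    · -- a true progression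
      have e0 : ((nd a.1.1 - nd (a + 2 * d).1.1) ^ 2 + (nd a.1.2 - nd (a + 2 * d).1.2) ^ 2 +
          (nd a.2 - nd (a + 2 * d).2) ^ 2) / 2 ≤ S := by
        rw [hSFsum]
        apply Fsum_true
        · rw [eb1, ec1]; simpa using e1
        · rw [eb2, ec2]; simpa using e2
        · rw [eb3, ec3]; simpa using e3
      have hne : d.1.1 ≠ 0 ∨ d.1.2 ≠ 0 ∨ d.2 ≠ 0 := by
        by_contra hcon
        push Not at hcon
        apply hd
        obtain ⟨c1, c2, c3⟩ := hcon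
        ext <;> simp [c1, c2, c3]
      have hlow : 1 / (P : ℝ) ^ 2 ≤ (nd a.1.1 - nd (a + 2 * d).1.1) ^ 2 +
          (nd a.1.2 - nd (a + 2 * d).1.2) ^ 2 + (nd a.2 - nd (a + 2 * d).2) ^ 2 := by
        rw [eb1, eb2, eb3]
        rcases hne with hne | hne | hne
        · have := t1 rfl hne P hP1
          nlinarith [sq_nonneg (nd a.1.2 - nd (a.1.2 + 2 * d.1.2)),
            sq_nonneg (nd a.2 - nd (a.2 + 2 * d.2))]
        · have := t2 rfl hne P hP2
          nlinarith [sq_nonneg (nd a.1.1 - nd (a.1.1 + 2 * d.1.1)),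
            sq_nonneg (nd a.2 - nd (a.2 + 2 * d.2))]
        · have := t3 rfl hne P hP3
          nlinarith [sq_nonneg (nd a.1.1 - nd (a.1.1 + 2 * d.1.1)),
            sq_nonneg (nd a.1.2 - nd (a.1.2 + 2 * d.1.2))]
      have hP0 : (0 : ℝ) < (P : ℝ) ^ 2 := by positivity
      have h5 : 1 / (2 * (P : ℝ) ^ 2) ≤ S := by
        have : 1 / (2 * (P : ℝ) ^ 2) = (1 / (P : ℝ) ^ 2) / 2 := by
          field_simp
        rw [this]
        linarith
      have h6 : M * (1 / (2 * (P : ℝ) ^ 2)) ≤ M * S := mul_le_mul_of_nonneg_left h5 hM0.le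
      have h7 : M * (1 / (2 * (P : ℝ) ^ 2)) = 4 := by
        rw [hM]
        field_simp
        norm_num
      linarith
    · have hP2 : (1 : ℝ) ≤ (P : ℝ) ^ 2 := one_le_pow₀ hPr
      have : M * 1 ≤ M * S := mul_le_mul_of_nonneg_left hcert hM0.le
      nlinarith
  -- the floors
  unfold FZ
  rw [← hM]
  have f1 := Int.lt_floor_add_one (M * FR a)
  have f2 := Int.lt_floor_add_one (M * FR (a + 2 * d))
  have f3 := Int.floor_le (M * FR (a + d))
  have hreal : (0 : ℝ) < ((⌊M * FR a⌋ + ⌊M * FR (a + 2 * d)⌋ - 2 * ⌊M * FR (a + d)⌋ : ℤ) : ℝ) := by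
    push_cast
    have e : M * S = M * FR a + M * FR (a + 2 * d) - 2 * (M * FR (a + d)) := by
      rw [hS]
      ring
    rw [e] at hkey
    linarith
  exact_mod_cast hreal

end Block

end Vale.Agent.Lib.P057R3
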