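import Vale.Agent.Lib.P057R3.Regions

namespace Vale.Agent.Lib.P057R3

/-- The certificate sum. -/
noncomputable def Fsum (a1 a2 a3 b1 b2 b3 c1 c2 c3 : ℝ) : ℝ :=
  Fn a1 a2 a3 + Fn b1 b2 b3 - 2 * Fn c1 c2 c3

lemma sq_id {u v w W : ℝ} (h : u + v - 2 * w = W) :
    u ^ 2 + v ^ 2 - 2 * w ^ 2 = (u - v) ^ 2 / 2 + W * (u + v) - W ^ 2 / 2 := by
  have hw : w = (u + v - W) / 2 := by linarith
  subst hw
  ring

lemma sq_zero {u v w : ℝ} (h : u + v - 2 * w = 0) : 0 ≤ u ^ 2 + v ^ 2 - 2 * w ^ 2 := by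
  rw [sq_id h]
  nlinarith [sq_nonneg (u - v)]

lemma sq_gap {u v w δ : ℝ} (h : u + v - 2 * w = 0) (hδ : 0 ≤ δ) (hg : δ ≤ u - v ∨ δ ≤ v - u) :
    δ ^ 2 / 2 ≤ u ^ 2 + v ^ 2 - 2 * w ^ 2 := by
  rw [sq_id h]
  rcases hg with hg | hg <;> nlinarith

lemma sq_one {u v w : ℝ} (h : u + v - 2 * w = 1) (hw : 0 ≤ w) :
    1 / 2 ≤ u ^ 2 + v ^ 2 - 2 * w ^ 2 := by
  rw [sq_id h]
  nlinarith [sq_nonneg (u - v)]

lemma sq_two {u v w : ℝ} (h : u + v - 2 * w = 2) (hw : 0 ≤ w) :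
    2 ≤ u ^ 2 + v ^ 2 - 2 * w ^ 2 := by
  rw [sq_id h]
  nlinarith [sq_nonneg (u - v)]

section Levels

variable {a1 a2 a3 b1 b2 b3 c1 c2 c3 : ℝ}

lemma Fsum_eq : Fsum a1 a2 a3 b1 b2 b3 c1 c2 c3 =
    200000000000000000000000 * ((a1 + a2 + a3) ^ 2 + (b1 + b2 + b3) ^ 2 - 2 * (c1 + c2 + c3) ^ 2) +
    1000000000000 * ((2 - a1 - a2) ^ 2 + (2 - b1 - b2) ^ 2 - 2 * (2 - c1 - c2) ^ 2) +
    4 * ((a1 + b1 - 2 * c1) - (a2 + b2 - 2 * c2)) +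
    ((a1 ^ 2 + b1 ^ 2 - 2 * c1 ^ 2) + (a2 ^ 2 + b2 ^ 2 - 2 * c2 ^ 2) +
      (a3 ^ 2 + b3 ^ 2 - 2 * c3 ^ 2)) := by
  unfold Fsum Fn
  ring

lemma Fsum_comm : Fsum a1 a2 a3 b1 b2 b3 c1 c2 c3 = Fsum b1 b2 b3 a1 a2 a3 c1 c2 c3 := by
  unfold Fsum
  ring

lemma H_lower (hc : Box c1 c2 c3) :
    -8 ≤ (2 - a1 - a2) ^ 2 + (2 - b1 - b2) ^ 2 - 2 * (2 - c1 - c2) ^ 2 := by
  obtain ⟨h1, h2, h3, h4, -, -⟩ := hc
  nlinarith [sq_nonneg (2 - a1 - a2), sq_nonneg (2 - b1 - b2),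
    mul_nonneg (by linarith : (0 : ℝ) ≤ 2 - c1 - c2) (by linarith : (0 : ℝ) ≤ c1 + c2)]

lemma R_lower (hc : Box c1 c2 c3) :
    -6 ≤ (a1 ^ 2 + b1 ^ 2 - 2 * c1 ^ 2) + (a2 ^ 2 + b2 ^ 2 - 2 * c2 ^ 2) +
      (a3 ^ 2 + b3 ^ 2 - 2 * c3 ^ 2) := by
  obtain ⟨h1, h2, h3, h4, h5, h6⟩ := hc
  nlinarith [sq_nonneg a1, sq_nonneg b1, sq_nonneg a2, sq_nonneg b2, sq_nonneg a3, sq_nonneg b3]

/-- The primary level wins. -/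
lemma good1 (hc : Box c1 c2 c3) (ha : Box a1 a2 a3) (hb : Box b1 b2 b3)
    (hT : (1 / 100000 : ℝ) ^ 2 / 2 ≤
      (a1 + a2 + a3) ^ 2 + (b1 + b2 + b3) ^ 2 - 2 * (c1 + c2 + c3) ^ 2) :
    1 ≤ Fsum a1 a2 a3 b1 b2 b3 c1 c2 c3 := by
  rw [Fsum_eq]
  have h1 := H_lower (a1 := a1) (a2 := a2) (b1 := b1) (b2 := b2) hc
  have h2 := R_lower (a1 := a1) (a2 := a2) (a3 := a3) (b1 := b1) (b2 := b2) (b3 := b3) hc
  obtain ⟨p1, p2, p3, p4, -, -⟩ := ha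
  obtain ⟨q1, q2, q3, q4, -, -⟩ := hb
  obtain ⟨r1, r2, r3, r4, -, -⟩ := hc
  norm_num at hT
  linarith

/-- The second level wins. -/
lemma good2 (hc : Box c1 c2 c3) (ha : Box a1 a2 a3) (hb : Box b1 b2 b3)
    (hT : 0 ≤ (a1 + a2 + a3) ^ 2 + (b1 + b2 + b3) ^ 2 - 2 * (c1 + c2 + c3) ^ 2)
    (hH : (1 / 100000 : ℝ) ^ 2 / 2 ≤
      (2 - a1 - a2) ^ 2 + (2 - b1 - b2) ^ 2 - 2 * (2 - c1 - c2) ^ 2) :
    1 ≤ Fsum a1 a2 a3 b1 b2 b3 c1 c2 c3 := by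
  rw [Fsum_eq]
  have h2 := R_lower (a1 := a1) (a2 := a2) (a3 := a3) (b1 := b1) (b2 := b2) (b3 := b3) hc
  obtain ⟨p1, p2, p3, p4, -, -⟩ := ha
  obtain ⟨q1, q2, q3, q4, -, -⟩ := hb
  obtain ⟨r1, r2, r3, r4, -, -⟩ := hc
  norm_num at hH
  linarith

/-- The linear level wins. -/
lemma good3 (hc : Box c1 c2 c3)
    (hT : 0 ≤ (a1 + a2 + a3) ^ 2 + (b1 + b2 + b3) ^ 2 - 2 * (c1 + c2 + c3) ^ 2)
    (hH : 0 ≤ (2 - a1 - a2) ^ 2 + (2 - b1 - b2) ^ 2 - 2 * (2 - c1 - c2) ^ 2)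
    (hL : (a1 + b1 - 2 * c1) - (a2 + b2 - 2 * c2) = 2) :
    1 ≤ Fsum a1 a2 a3 b1 b2 b3 c1 c2 c3 := by
  rw [Fsum_eq]
  have h2 := R_lower (a1 := a1) (a2 := a2) (a3 := a3) (b1 := b1) (b2 := b2) (b3 := b3) hc
  rw [hL]
  linarith

end Levels

section Pairs

variable {a1 a2 a3 b1 b2 b3 c1 c2 c3 : ℝ}

/-- Wrap with total `+2`. -/
lemma caseW2 (ha : Box a1 a2 a3) (hb : Box b1 b2 b3) (hc : Box c1 c2 c3)
    (hW : (a1 + a2 + a3) + (b1 + b2 + b3) - 2 * (c1 + c2 + c3) = 2) :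
    1 ≤ Fsum a1 a2 a3 b1 b2 b3 c1 c2 c3 := by
  apply good1 hc ha hb
  have h0 : 0 ≤ c1 + c2 + c3 := by
    obtain ⟨r1, -, r3, -, r5, -⟩ := hc
    linarith
  have := sq_two hW h0
  norm_num
  linarith

/-- Total `0`, and the second level has total `+1`. -/
lemma caseV1 (ha : Box a1 a2 a3) (hb : Box b1 b2 b3) (hc : Box c1 c2 c3)
    (hW : (a1 + a2 + a3) + (b1 + b2 + b3) - 2 * (c1 + c2 + c3) = 0)
    (hV : (2 - a1 - a2) + (2 - b1 - b2) - 2 * (2 - c1 - c2) = 1) :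
    1 ≤ Fsum a1 a2 a3 b1 b2 b3 c1 c2 c3 := by
  apply good2 hc ha hb (sq_zero hW)
  have h0 : 0 ≤ 2 - c1 - c2 := by
    obtain ⟨-, r2, -, r4, -, -⟩ := hc
    linarith
  have := sq_one hV h0
  norm_num
  linarith

/-- Total `0`, second level total `0`, linear level `+2`. -/
lemma caseL2 (hc : Box c1 c2 c3)
    (hW : (a1 + a2 + a3) + (b1 + b2 + b3) - 2 * (c1 + c2 + c3) = 0)
    (hV : (2 - a1 - a2) + (2 - b1 - b2) - 2 * (2 - c1 - c2) = 0)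
    (hL : (a1 + b1 - 2 * c1) - (a2 + b2 - 2 * c2) = 2) :
    1 ≤ Fsum a1 a2 a3 b1 b2 b3 c1 c2 c3 :=
  good3 hc (sq_zero hW) (sq_zero hV) hL

/-- Total `0` with a gap in the primary level. -/
lemma caseGapT (ha : Box a1 a2 a3) (hb : Box b1 b2 b3) (hc : Box c1 c2 c3)
    (hW : (a1 + a2 + a3) + (b1 + b2 + b3) - 2 * (c1 + c2 + c3) = 0)
    (hg : (1 / 100000 : ℝ) ≤ (a1 + a2 + a3) - (b1 + b2 + b3) ∨
      (1 / 100000 : ℝ) ≤ (b1 + b2 + b3) - (a1 + a2 + a3)) :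
    1 ≤ Fsum a1 a2 a3 b1 b2 b3 c1 c2 c3 :=
  good1 hc ha hb (sq_gap hW (by norm_num) hg)

/-- Totals `0` with a gap in the second level. -/
lemma caseGapG (ha : Box a1 a2 a3) (hb : Box b1 b2 b3) (hc : Box c1 c2 c3)
    (hW : (a1 + a2 + a3) + (b1 + b2 + b3) - 2 * (c1 + c2 + c3) = 0)
    (hV : (2 - a1 - a2) + (2 - b1 - b2) - 2 * (2 - c1 - c2) = 0)
    (hg : (1 / 100000 : ℝ) ≤ (a1 + a2) - (b1 + b2) ∨
      (1 / 100000 : ℝ) ≤ (b1 + b2) - (a1 + a2)) :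
    1 ≤ Fsum a1 a2 a3 b1 b2 b3 c1 c2 c3 := by
  apply good2 hc ha hb (sq_zero hW)
  apply sq_gap hV (by norm_num)
  rcases hg with hg | hg
  · right; linarith
  · left; linarith

/-- The plane-level exclusion, for `a` in an even class and `b` in an odd class. -/
lemma caseN2 (ha : Box a1 a2 a3) (hb : Box b1 b2 b3) (hc : Box c1 c2 c3)
    (hTa : Thr a1 a2 a3) (hTb : OddThr b1 b2 b3)
    (hW : (a1 + a2 + a3) + (b1 + b2 + b3) - 2 * (c1 + c2 + c3) = 0)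
    (h3 : a3 + b3 - 2 * c3 = -1) :
    1 ≤ Fsum a1 a2 a3 b1 b2 b3 c1 c2 c3 := by
  by_cases hg : (1 / 100000 : ℝ) ≤ (b1 + b2 + b3) - (a1 + a2 + a3)
  · exact caseGapT ha hb hc hW (Or.inr hg)
  · exfalso
    push Not at hg
    obtain ⟨-, -, -, -, -, r6⟩ := hc
    unfold OddThr at hTb
    unfold Thr at hTa
    obtain ⟨t1, t2⟩ := hTb
    rcases hTa with t3 | t3
    · linarith
    · linarith

end Pairs

end Vale.Agent.Lib.P057R3
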