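import Vale.Agent.Lib.P057R3.Total

namespace Vale.Agent.Lib.P057R3

set_option maxRecDepth 100000 in
/-- The kernel computation of the grid total. -/
theorem gridTotal_ge : 21748335511 ≤ gridTotal := by decide +kernel

end Vale.Agent.Lib.P057R3
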