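import Vale.Agent.Lib.P057R3.Geometry

namespace Vale.Agent.Lib.P057R3

variable {a1 a2 a3 b1 b2 b3 c1 c2 c3 : ℝ}

/-- Classes `0` and `A`. -/
lemma pair_0A (ha : Box a1 a2 a3) (hb : Box b1 b2 b3) (hc : Box c1 c2 c3)
    (hRa : R0 a1 a2 a3) (hRb : RA b1 b2 b3) (hTop : Top c1 c2 c3) {w1 w2 : ℤ}
    (h1 : a1 + b1 - 2 * c1 = w1) (h2 : a2 + b2 - 2 * c2 = w2) (h3 : a3 + b3 - 2 * c3 = 0)
    (hw1 : w1 = 1 ∨ w1 = -1) (hw2 : w2 = 1 ∨ w2 = -1) :
    1 ≤ Fsum a1 a2 a3 b1 b2 b3 c1 c2 c3 := by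
  rcases hw1 with rfl | rfl <;> rcases hw2 with rfl | rfl <;> push_cast at h1 h2
  · exact caseW2 ha hb hc (by linarith)
  · exact caseL2 hc (by linarith) (by linarith) (by linarith)
  · -- the line exclusion
    by_cases hg : (1 / 100000 : ℝ) ≤ (b1 + b2) - (a1 + a2)
    · exact caseGapG ha hb hc (by linarith) (by linarith) (Or.inr hg)
    · exfalso
      push Not at hg
      obtain ⟨-, r1, -, r3, -, -⟩ := ha
      obtain ⟨-, -, -, -, -, -⟩ := hb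
      obtain ⟨-, s2, s3, -, -, -⟩ := hc
      obtain ⟨-, t1, -, -, -⟩ := hRb
      linarith
  · exfalso
    obtain ⟨-, t0, -, -, -⟩ := hRa
    obtain ⟨-, t1, -, -, -⟩ := hRb
    obtain ⟨t2, -, -⟩ := hTop
    linarith

/-- Classes `B` and `C`. -/
lemma pair_BC (ha : Box a1 a2 a3) (hb : Box b1 b2 b3) (hc : Box c1 c2 c3)
    (hRa : RB a1 a2 a3) (hRb : RC b1 b2 b3) (hTop : Top c1 c2 c3) {w1 w2 : ℤ}
    (h1 : a1 + b1 - 2 * c1 = w1) (h2 : a2 + b2 - 2 * c2 = w2) (h3 : a3 + b3 - 2 * c3 = 0)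
    (hw1 : w1 = 1 ∨ w1 = -1) (hw2 : w2 = 1 ∨ w2 = -1)
    (hne : a2 ≠ 1 / 2) :
    1 ≤ Fsum a1 a2 a3 b1 b2 b3 c1 c2 c3 := by
  rcases hw1 with rfl | rfl <;> rcases hw2 with rfl | rfl <;> push_cast at h1 h2
  · exact caseW2 ha hb hc (by linarith)
  · exact caseL2 hc (by linarith) (by linarith) (by linarith)
  · -- the line exclusion
    obtain ⟨-, -, -, -, tb⟩ := hRa
    obtain ⟨-, -, -, -, tc⟩ := hRb
    obtain ⟨r0, r1, r2, r3, -, -⟩ := id ha
    obtain ⟨s0, s1, s2, s3, -, -⟩ := id hb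
    obtain ⟨u0, u1, u2, u3, -, -⟩ := id hc
    unfold TCut at tb tc
    have hW : (a1 + a2 + a3) + (b1 + b2 + b3) - 2 * (c1 + c2 + c3) = 0 := by linarith
    have hV : (2 - a1 - a2) + (2 - b1 - b2) - 2 * (2 - c1 - c2) = 0 := by linarith
    rcases tb with tb | tb <;> rcases tc with tc | tc
    · exfalso; linarith
    · by_cases hg : (1 / 100000 : ℝ) ≤ (a1 + a2) - (b1 + b2)
      · exact caseGapG ha hb hc hW hV (Or.inl hg)
      · exfalso
        push Not at hg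
        linarith
    · by_cases hg : (1 / 100000 : ℝ) ≤ (b1 + b2) - (a1 + a2)
      · exact caseGapG ha hb hc hW hV (Or.inr hg)
      · exfalso
        push Not at hg
        linarith
    · exfalso
      have : a2 = 1 / 2 := by linarith
      exact hne this
  · exfalso
    obtain ⟨-, -, -, ⟨-, t1⟩, -⟩ := hRa
    obtain ⟨-, -, -, ⟨-, t2⟩, -⟩ := hRb
    obtain ⟨-, t3, t4⟩ := hTop
    obtain ⟨u0, u1, u2, u3, u4, u5⟩ := hc
    linarith

/-- An even class and an odd class differing in the first and the third digit. -/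
lemma pair_13 (ha : Box a1 a2 a3) (hb : Box b1 b2 b3) (hc : Box c1 c2 c3)
    (hTa : Thr a1 a2 a3) (hTb : OddThr b1 b2 b3) (hTop : Top c1 c2 c3) {w1 w3 : ℤ}
    (hsep : 2 * (3243 / 1000 : ℝ) < (a1 + (9011 / 10000) * a2 + (10001 / 5000) * a3) +
      (b1 + (9011 / 10000) * b2 + (10001 / 5000) * b3) + (1 + 10001 / 5000))
    (h1 : a1 + b1 - 2 * c1 = w1) (h2 : a2 + b2 - 2 * c2 = 0) (h3 : a3 + b3 - 2 * c3 = w3)
    (hw1 : w1 = 1 ∨ w1 = -1) (hw3 : w3 = 1 ∨ w3 = -1) :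
    1 ≤ Fsum a1 a2 a3 b1 b2 b3 c1 c2 c3 := by
  rcases hw1 with rfl | rfl <;> rcases hw3 with rfl | rfl <;> push_cast at h1 h3
  · exact caseW2 ha hb hc (by linarith)
  · exact caseN2 ha hb hc hTa hTb (by linarith) h3
  · exact caseV1 ha hb hc (by linarith) (by linarith)
  · exfalso
    obtain ⟨-, t3, -⟩ := hTop
    linarith

/-- An even class and an odd class differing in the second and the third digit. -/
lemma pair_23 (ha : Box a1 a2 a3) (hb : Box b1 b2 b3) (hc : Box c1 c2 c3)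
    (hTa : Thr a1 a2 a3) (hTb : OddThr b1 b2 b3) (hTop : Top c1 c2 c3) {w2 w3 : ℤ}
    (hsep : 2 * (1329 / 400 : ℝ) < ((1833 / 2000) * a1 + a2 + (2083 / 1000) * a3) +
      ((1833 / 2000) * b1 + b2 + (2083 / 1000) * b3) + (1 + 2083 / 1000))
    (h1 : a1 + b1 - 2 * c1 = 0) (h2 : a2 + b2 - 2 * c2 = w2) (h3 : a3 + b3 - 2 * c3 = w3)
    (hw2 : w2 = 1 ∨ w2 = -1) (hw3 : w3 = 1 ∨ w3 = -1) :
    1 ≤ Fsum a1 a2 a3 b1 b2 b3 c1 c2 c3 := by
  rcases hw2 with rfl | rfl <;> rcases hw3 with rfl | rfl <;> push_cast at h2 h3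
  · exact caseW2 ha hb hc (by linarith)
  · exact caseN2 ha hb hc hTa hTb (by linarith) h3
  · exact caseV1 ha hb hc (by linarith) (by linarith)
  · exfalso
    obtain ⟨-, -, t3⟩ := hTop
    linarith

end Vale.Agent.Lib.P057R3
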