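import Vale.Agent.Lib.P057R3.AP

namespace Vale.Agent.Lib.P057R3

open Finset

/-- An upper constraint `α x + β y + γ z ≤ τ + γ' z`. -/
structure HC where
  α : ℕ
  β : ℕ
  γ : ℕ
  γ' : ℕ
  τ : ℕ

/-- A lower constraint `τ ≤ α x + β y + γ z`. -/
structure LC where
  α : ℕ
  β : ℕ
  γ : ℕ
  τ : ℕ

/-- A polytope given by its constraints. -/
structure Poly where
  hi : List HC
  lo : List LC

/-- Membership of a real point in a polytope. -/
def InPoly (P : Poly) (x y z : ℝ) : Prop :=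
  (∀ C ∈ P.hi, (C.α : ℝ) * x + C.β * y + C.γ * z ≤ C.τ + C.γ' * z) ∧
    (∀ C ∈ P.lo, (C.τ : ℝ) ≤ C.α * x + C.β * y + C.γ * z)

/-- Minimum, by a function the kernel computes quickly. -/
def mn (a b : ℕ) : ℕ := bif Nat.ble a b then a else b
/-- Maximum, by a function the kernel computes quickly. -/
def mx (a b : ℕ) : ℕ := bif Nat.ble a b then b else a

lemma mn_le_left (a b : ℕ) : mn a b ≤ a := by
  unfold mn
  cases h : Nat.ble a b
  · simp only [cond_false]
    have : ¬ a ≤ b := by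
      intro h'
      have := Nat.ble_eq_true_of_le h'
      simp [h] at this
    omega
  · simp

lemma mn_le_right (a b : ℕ) : mn a b ≤ b := by
  unfold mn
  cases h : Nat.ble a b
  · simp
  · simp only [cond_true]
    exact Nat.le_of_ble_eq_true h

lemma le_mx_left (a b : ℕ) : a ≤ mx a b := by
  unfold mx
  cases h : Nat.ble a b
  · simp
  · simp only [cond_true]
    exact Nat.le_of_ble_eq_true h

lemma le_mx_right (a b : ℕ) : b ≤ mx a b := by
  unfold mx
  cases h : Nat.ble a b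
  · simp only [cond_false]
    have : ¬ a ≤ b := by
      intro h'
      have := Nat.ble_eq_true_of_le h'
      simp [h] at this
    omega
  · simp

/-- The value of the upper constraint at a node (scale `D`). -/
def hVal (D G : ℕ) (C : HC) (i k : ℕ) : ℕ :=
  D * (C.τ * G + C.γ' * k - (C.β * i + C.γ * k)) / (C.α * G)

/-- The value of the lower constraint at a node (scale `D`). -/
def lVal (D G : ℕ) (C : LC) (i k : ℕ) : ℕ :=
  (D * (C.τ * G - (C.β * i + C.γ * k)) + C.α * G - 1) / (C.α * G)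

/-- The upper end of a node interval. -/
def nodeHi (D G : ℕ) (L : List HC) (i k : ℕ) : ℕ :=
  match L with
  | [] => D
  | C :: L' => mn (hVal D G C i k) (nodeHi D G L' i k)

/-- The lower end of a node interval. -/
def nodeLo (D G : ℕ) (L : List LC) (i k : ℕ) : ℕ :=
  match L with
  | [] => 0
  | C :: L' => mx (lVal D G C i k) (nodeLo D G L' i k)

/-- The upper constraints make sense at a node. -/
def hiOK (G : ℕ) (L : List HC) (i k : ℕ) : Bool :=
  match L with
  | [] => true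
  | C :: L' => bif Nat.ble (C.β * i + C.γ * k) (C.τ * G + C.γ' * k) then hiOK G L' i k else false

/-- A node is good: its interval is not empty. -/
def nodeOK (D G : ℕ) (P : Poly) (i k : ℕ) : Bool :=
  bif hiOK G P.hi i k then Nat.ble (nodeLo D G P.lo i k) (nodeHi D G P.hi i k) else false

/-- The length of the interval of a node. -/
def nodeLen (D G : ℕ) (P : Poly) (i k : ℕ) : ℕ :=
  nodeHi D G P.hi i k - nodeLo D G P.lo i k

/-- The value of a cell: the sum of its four node lengths if all nodes are good, and `0` else. -/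
def cellVal (D G : ℕ) (P : Option Poly) (i k : ℕ) : ℕ :=
  match P with
  | none => 0
  | some P =>
    bif nodeOK D G P i k then
      bif nodeOK D G P (i + 1) k then
        bif nodeOK D G P i (k + 1) then
          bif nodeOK D G P (i + 1) (k + 1) then
            nodeLen D G P i k + nodeLen D G P (i + 1) k + nodeLen D G P i (k + 1) +
              nodeLen D G P (i + 1) (k + 1)
          else 0
        else 0
      else 0
    else 0

lemma nodeHi_le_D (D G : ℕ) (L : List HC) (i k : ℕ) : nodeHi D G L i k ≤ D := by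
  induction L with
  | nil => simp [nodeHi]
  | cons C L ih =>
    simp only [nodeHi]
    exact (mn_le_right _ _).trans ih

lemma nodeHi_le (D G : ℕ) {L : List HC} {C : HC} (hC : C ∈ L) (i k : ℕ) :
    nodeHi D G L i k ≤ hVal D G C i k := by
  induction L with
  | nil => simp at hC
  | cons C' L ih =>
    simp only [nodeHi]
    rcases List.mem_cons.1 hC with rfl | h
    · exact mn_le_left _ _
    · exact (mn_le_right _ _).trans (ih h)

lemma le_nodeLo (D G : ℕ) {L : List LC} {C : LC} (hC : C ∈ L) (i k : ℕ) :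
    lVal D G C i k ≤ nodeLo D G L i k := by
  induction L with
  | nil => simp at hC
  | cons C' L ih =>
    simp only [nodeLo]
    rcases List.mem_cons.1 hC with rfl | h
    · exact le_mx_left _ _
    · exact (ih h).trans (le_mx_right _ _)

lemma hiOK_mem {G : ℕ} {L : List HC} {i k : ℕ} (h : hiOK G L i k = true) {C : HC} (hC : C ∈ L) :
    C.β * i + C.γ * k ≤ C.τ * G + C.γ' * k := by
  induction L with
  | nil => simp at hC
  | cons C' L ih =>
    simp only [hiOK] at h
    cases hb : Nat.ble (C'.β * i + C'.γ * k) (C'.τ * G + C'.γ' * k)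
    · simp [hb] at h
    · simp only [hb, cond_true] at h
      rcases List.mem_cons.1 hC with rfl | h'
      · exact Nat.le_of_ble_eq_true hb
      · exact ih h h'

/-- Soundness of the upper end. -/
lemma node_hi_sound {D G : ℕ} (hD : 0 < D) (hG : 0 < G) {L : List HC} {i k : ℕ}
    (h : hiOK G L i k = true) {C : HC} (hC : C ∈ L) (hα : 0 < C.α) :
    (C.α : ℝ) * ((nodeHi D G L i k : ℝ) / D) + C.β * ((i : ℝ) / G) + C.γ * ((k : ℝ) / G) ≤
      C.τ + C.γ' * ((k : ℝ) / G) := by
  have h1 := hiOK_mem h hC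
  have h2 := nodeHi_le D G hC i k
  have h3 : hVal D G C i k * (C.α * G) ≤ D * (C.τ * G + C.γ' * k - (C.β * i + C.γ * k)) :=
    Nat.div_mul_le_self _ _
  have h4 : nodeHi D G L i k * (C.α * G) + D * (C.β * i + C.γ * k) ≤ D * (C.τ * G + C.γ' * k) := by
    have h5 : nodeHi D G L i k * (C.α * G) ≤ hVal D G C i k * (C.α * G) :=
      Nat.mul_le_mul_right _ h2
    have h6 : D * (C.τ * G + C.γ' * k - (C.β * i + C.γ * k)) + D * (C.β * i + C.γ * k) =
        D * (C.τ * G + C.γ' * k) := by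
      rw [← mul_add, Nat.sub_add_cancel h1]
    omega
  have h7 : ((nodeHi D G L i k * (C.α * G) + D * (C.β * i + C.γ * k) : ℕ) : ℝ) ≤
      ((D * (C.τ * G + C.γ' * k) : ℕ) : ℝ) := by
    exact_mod_cast h4
  push_cast at h7
  have hDr : (0 : ℝ) < D := by exact_mod_cast hD
  have hGr : (0 : ℝ) < G := by exact_mod_cast hG
  have e : (C.τ : ℝ) + C.γ' * ((k : ℝ) / G) -
      ((C.α : ℝ) * ((nodeHi D G L i k : ℝ) / D) + C.β * ((i : ℝ) / G) + C.γ * ((k : ℝ) / G)) =
      ((D : ℝ) * (C.τ * G + C.γ' * k) -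
        ((nodeHi D G L i k : ℝ) * (C.α * G) + D * (C.β * i + C.γ * k))) / (D * G) := by
    field_simp
    ring
  have h8 : 0 ≤ ((D : ℝ) * (C.τ * G + C.γ' * k) -
        ((nodeHi D G L i k : ℝ) * (C.α * G) + D * (C.β * i + C.γ * k))) / (D * G) :=
    div_nonneg (by linarith) (by positivity)
  linarith

/-- Soundness of the lower end. -/
lemma node_lo_sound {D G : ℕ} (hD : 0 < D) (hG : 0 < G) {L : List LC} {i k : ℕ}
    {C : LC} (hC : C ∈ L) (hα : 0 < C.α) :
    (C.τ : ℝ) ≤ (C.α : ℝ) * ((nodeLo D G L i k : ℝ) / D) + C.β * ((i : ℝ) / G) +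
      C.γ * ((k : ℝ) / G) := by
  have h2 := le_nodeLo D G hC i k
  have hb : 0 < C.α * G := Nat.mul_pos hα hG
  have h3 : D * (C.τ * G - (C.β * i + C.γ * k)) ≤ lVal D G C i k * (C.α * G) := by
    unfold lVal
    set a := D * (C.τ * G - (C.β * i + C.γ * k)) with ha
    set b := C.α * G with hb'
    have h1 := Nat.div_add_mod (a + b - 1) b
    have h5 := Nat.mod_lt (a + b - 1) hb
    rw [mul_comm]
    omega
  have h4 : D * (C.τ * G) ≤ nodeLo D G L i k * (C.α * G) + D * (C.β * i + C.γ * k) := by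
    have h5 : lVal D G C i k * (C.α * G) ≤ nodeLo D G L i k * (C.α * G) :=
      Nat.mul_le_mul_right _ h2
    have h6 : C.τ * G ≤ (C.τ * G - (C.β * i + C.γ * k)) + (C.β * i + C.γ * k) := by omega
    have h7 := Nat.mul_le_mul_left D h6
    rw [mul_add] at h7
    rw [mul_add D (C.β * i) (C.γ * k)] at *
    omega
  have h7 : ((D * (C.τ * G) : ℕ) : ℝ) ≤
      ((nodeLo D G L i k * (C.α * G) + D * (C.β * i + C.γ * k) : ℕ) : ℝ) := by
    exact_mod_cast h4
  push_cast at h7
  have hDr : (0 : ℝ) < D := by exact_mod_cast hD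
  have hGr : (0 : ℝ) < G := by exact_mod_cast hG
  have e : (C.α : ℝ) * ((nodeLo D G L i k : ℝ) / D) + C.β * ((i : ℝ) / G) + C.γ * ((k : ℝ) / G) -
      C.τ =
      ((nodeLo D G L i k : ℝ) * (C.α * G) + D * (C.β * i + C.γ * k) - D * (C.τ * G)) / (D * G) := by
    field_simp
    ring
  have h8 : 0 ≤ ((nodeLo D G L i k : ℝ) * (C.α * G) + D * (C.β * i + C.γ * k) - D * (C.τ * G)) /
      (D * G) := div_nonneg (by linarith) (by positivity)
  linarith

/-- Bilinear interpolation. -/
def bil (r s v00 v10 v01 v11 : ℝ) : ℝ :=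
  (1 - r) * (1 - s) * v00 + r * (1 - s) * v10 + (1 - r) * s * v01 + r * s * v11

lemma bil_nonpos {r s v00 v10 v01 v11 : ℝ} (hr0 : 0 ≤ r) (hr1 : r ≤ 1) (hs0 : 0 ≤ s) (hs1 : s ≤ 1)
    (h00 : v00 ≤ 0) (h10 : v10 ≤ 0) (h01 : v01 ≤ 0) (h11 : v11 ≤ 0) :
    bil r s v00 v10 v01 v11 ≤ 0 := by
  unfold bil
  have a1 : 0 ≤ (1 - r) * (1 - s) := mul_nonneg (by linarith) (by linarith)
  have a2 : 0 ≤ r * (1 - s) := mul_nonneg hr0 (by linarith)
  have a3 : 0 ≤ (1 - r) * s := mul_nonneg (by linarith) hs0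
  have a4 : 0 ≤ r * s := mul_nonneg hr0 hs0
  nlinarith [mul_nonneg a1 (neg_nonneg.2 h00), mul_nonneg a2 (neg_nonneg.2 h10),
    mul_nonneg a3 (neg_nonneg.2 h01), mul_nonneg a4 (neg_nonneg.2 h11)]

lemma bil_mono {r s : ℝ} {v00 v10 v01 v11 u00 u10 u01 u11 : ℝ} (hr0 : 0 ≤ r) (hr1 : r ≤ 1)
    (hs0 : 0 ≤ s) (hs1 : s ≤ 1) (h00 : v00 ≤ u00) (h10 : v10 ≤ u10) (h01 : v01 ≤ u01)
    (h11 : v11 ≤ u11) : bil r s v00 v10 v01 v11 ≤ bil r s u00 u10 u01 u11 := by
  have := bil_nonpos (v00 := v00 - u00) (v10 := v10 - u10) (v01 := v01 - u01) (v11 := v11 - u11)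
    hr0 hr1 hs0 hs1 (by linarith) (by linarith) (by linarith) (by linarith)
  have e : bil r s (v00 - u00) (v10 - u10) (v01 - u01) (v11 - u11) =
      bil r s v00 v10 v01 v11 - bil r s u00 u10 u01 u11 := by
    unfold bil
    ring
  linarith

lemma bil_const (r s c : ℝ) : bil r s c c c c = c := by
  unfold bil
  ring

/-- The double sum of a bilinear interpolation. -/
lemma sum_bil {m n : ℕ} (r s : ℕ → ℝ) (v00 v10 v01 v11 : ℝ) :
    ∑ a ∈ range m, ∑ b ∈ range n, bil (r a) (s b) v00 v10 v01 v11 =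
      (∑ a ∈ range m, (1 - r a)) * (∑ b ∈ range n, (1 - s b)) * v00 +
      (∑ a ∈ range m, r a) * (∑ b ∈ range n, (1 - s b)) * v10 +
      (∑ a ∈ range m, (1 - r a)) * (∑ b ∈ range n, s b) * v01 +
      (∑ a ∈ range m, r a) * (∑ b ∈ range n, s b) * v11 := by
  unfold bil
  simp only [sum_mul, mul_sum, ← sum_add_distrib]
  rw [sum_comm]

end Vale.Agent.Lib.P057R3
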