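import Mathlib

namespace Vale.Agent.Lib.P057R3

/-- The common top cuts. -/
def Top (x y z : ℝ) : Prop :=
  2 * x + y ≤ (2659/1000) ∧ x + (9011/10000) * y + (10001/5000) * z ≤ (3243/1000) ∧
    (1833/2000) * x + y + (2083/1000) * z ≤ (1329/400)

/-- The threshold for the classes `0` and `A`. -/
def Thr (x y z : ℝ) : Prop :=
  1 / 2 ≤ z ∨ (9093/10000) * x + (9093/10000) * y ≤ (15117/10000) + (907/10000) * z

/-- The threshold for the classes `B` and `C`. -/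
def OddThr (x y z : ℝ) : Prop :=
  1 / 2 ≤ z ∧ (251171/100000) ≤ (9093/10000) * x + (9093/10000) * y + (19093/10000) * z

/-- The cut on lines for the classes `B` and `C`. -/
def TCut (x y : ℝ) : Prop := (50001/100000) ≤ x ∨ y ≤ 1 / 2

/-- Class `0`. -/
def R0 (x y z : ℝ) : Prop :=
  Top x y z ∧ (159/500) ≤ 2 * x + y ∧ (2131/2500) ≤ x + (9011/10000) * y + (10001/5000) * z ∧
    (8737/10000) ≤ (1833/2000) * x + y + (2083/1000) * z ∧ Thr x y z

/-- Class `A`. -/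
def RA (x y z : ℝ) : Prop :=
  Top x y z ∧ (200001/100000) ≤ 2 * x + y ∧ (624/625) ≤ x + (9011/10000) * y + (10001/5000) * z ∧
    (4553/5000) ≤ (1833/2000) * x + y + (2083/1000) * z ∧ Thr x y z

/-- Class `B`. -/
def RB (x y z : ℝ) : Prop :=
  Top x y z ∧ (263341/100000) ≤ x + (9011/10000) * y + (10001/5000) * z ∧
    (265141/100000) ≤ (1833/2000) * x + y + (2083/1000) * z ∧ OddThr x y z ∧ TCut x y

/-- Class `C`. -/
def RC (x y z : ℝ) : Prop :=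
  Top x y z ∧ (248741/100000) ≤ x + (9011/10000) * y + (10001/5000) * z ∧
    (268831/100000) ≤ (1833/2000) * x + y + (2083/1000) * z ∧ OddThr x y z ∧ TCut x y

/-- The digit region: the parity class of a digit triple selects the region. -/
def InS (e₁ e₂ e₃ : ℕ) (x y z : ℝ) : Prop :=
  (e₁ = 0 ∧ e₂ = 0 ∧ e₃ = 0 ∧ R0 x y z) ∨ (e₁ = 1 ∧ e₂ = 1 ∧ e₃ = 0 ∧ RA x y z) ∨
    (e₁ = 1 ∧ e₂ = 0 ∧ e₃ = 1 ∧ RB x y z) ∨ (e₁ = 0 ∧ e₂ = 1 ∧ e₃ = 1 ∧ RC x y z)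

/-- The box `[0,1)^3`. -/
def Box (x y z : ℝ) : Prop := 0 ≤ x ∧ x < 1 ∧ 0 ≤ y ∧ y < 1 ∧ 0 ≤ z ∧ z < 1

/-- The certificate function on the box. -/
noncomputable def Fn (x y z : ℝ) : ℝ :=
  200000000000000000000000 * (x + y + z) ^ 2 + 1000000000000 * (2 - x - y) ^ 2 + 4 * (x - y) + (x ^ 2 + y ^ 2 + z ^ 2)

/-- An upper bound for `|Fn|` on the box. -/
def FMax : ℕ := 1800000000004000000000007

end Vale.Agent.Lib.P057R3
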