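import Vale.Agent.Lib.P057R3.Table
import Vale.Agent.Lib.P057R3.Regions

namespace Vale.Agent.Lib.P057R3

lemma half_le_of_cell {k : ℕ} {z : ℝ} (hk : 32 ≤ k) (hz : (k : ℝ) / (gridG : ℕ) ≤ z) : 1 / 2 ≤ z := by
  have h1 : (32 : ℝ) ≤ k := by exact_mod_cast hk
  have h2 : (gridG : ℝ) = 64 := by norm_num [gridG]
  rw [h2] at hz
  have : (32 : ℝ) / 64 ≤ (k : ℝ) / 64 := div_le_div_of_nonneg_right h1 (by norm_num)
  norm_num at this
  linarith

lemma lt_half_of_cell {i : ℕ} {y : ℝ} (hi : i + 1 ≤ 32) (hy : y < ((i : ℝ) + 1) / (gridG : ℕ)) :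
    y ≤ 1 / 2 := by
  have h1 : (i : ℝ) + 1 ≤ 32 := by exact_mod_cast hi
  have h2 : (gridG : ℝ) = 64 := by norm_num [gridG]
  rw [h2] at hy
  have : ((i : ℝ) + 1) / 64 ≤ (32 : ℝ) / 64 := div_le_div_of_nonneg_right h1 (by norm_num)
  norm_num at this
  linarith

lemma P0a_sound {x y z : ℝ} (h : InPoly P0a x y z) (hz : 1 / 2 ≤ z) : R0 x y z := by
  simp only [InPoly, P0a, List.mem_cons, List.not_mem_nil, or_false, forall_eq_or_imp, forall_eq] at h
  norm_num at h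
  obtain ⟨⟨h1, h2, h3⟩, l1, l2, l3⟩ := h
  refine ⟨⟨by linarith, by linarith, by linarith⟩, by linarith, by linarith, by linarith, Or.inl hz⟩

lemma P0b_sound {x y z : ℝ} (h : InPoly P0b x y z) : R0 x y z := by
  simp only [InPoly, P0b, List.mem_cons, List.not_mem_nil, or_false, forall_eq_or_imp, forall_eq] at h
  norm_num at h
  obtain ⟨⟨h1, h2, h3, h4⟩, l1, l2, l3⟩ := h
  refine ⟨⟨by linarith, by linarith, by linarith⟩, by linarith, by linarith, by linarith,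
    Or.inr (by linarith)⟩

lemma PAa_sound {x y z : ℝ} (h : InPoly PAa x y z) (hz : 1 / 2 ≤ z) : RA x y z := by
  simp only [InPoly, PAa, List.mem_cons, List.not_mem_nil, or_false, forall_eq_or_imp, forall_eq] at h
  norm_num at h
  obtain ⟨⟨h1, h2, h3⟩, l1, l2, l3⟩ := h
  refine ⟨⟨by linarith, by linarith, by linarith⟩, by linarith, by linarith, by linarith, Or.inl hz⟩

lemma PAb_sound {x y z : ℝ} (h : InPoly PAb x y z) : RA x y z := by
  simp only [InPoly, PAb, List.mem_cons, List.not_mem_nil, or_false, forall_eq_or_imp, forall_eq] at h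
  norm_num at h
  obtain ⟨⟨h1, h2, h3, h4⟩, l1, l2, l3⟩ := h
  refine ⟨⟨by linarith, by linarith, by linarith⟩, by linarith, by linarith, by linarith,
    Or.inr (by linarith)⟩

lemma PBa_sound {x y z : ℝ} (h : InPoly PBa x y z) (hz : 1 / 2 ≤ z) : RB x y z := by
  simp only [InPoly, PBa, List.mem_cons, List.not_mem_nil, or_false, forall_eq_or_imp, forall_eq] at h
  norm_num at h
  obtain ⟨⟨h1, h2, h3⟩, l1, l2, l3, l4⟩ := h
  exact ⟨⟨by linarith, by linarith, by linarith⟩, by linarith, by linarith,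
    ⟨hz, by linarith⟩, Or.inl (by linarith)⟩

lemma PBb_sound {x y z : ℝ} (h : InPoly PBb x y z) (hz : 1 / 2 ≤ z) (hy : y ≤ 1 / 2) : RB x y z := by
  simp only [InPoly, PBb, List.mem_cons, List.not_mem_nil, or_false, forall_eq_or_imp, forall_eq] at h
  norm_num at h
  obtain ⟨⟨h1, h2, h3⟩, l1, l2, l3⟩ := h
  exact ⟨⟨by linarith, by linarith, by linarith⟩, by linarith, by linarith,
    ⟨hz, by linarith⟩, Or.inr hy⟩

lemma PCa_sound {x y z : ℝ} (h : InPoly PCa x y z) (hz : 1 / 2 ≤ z) : RC x y z := by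
  simp only [InPoly, PCa, List.mem_cons, List.not_mem_nil, or_false, forall_eq_or_imp, forall_eq] at h
  norm_num at h
  obtain ⟨⟨h1, h2, h3⟩, l1, l2, l3, l4⟩ := h
  exact ⟨⟨by linarith, by linarith, by linarith⟩, by linarith, by linarith,
    ⟨hz, by linarith⟩, Or.inl (by linarith)⟩

lemma PCb_sound {x y z : ℝ} (h : InPoly PCb x y z) (hz : 1 / 2 ≤ z) (hy : y ≤ 1 / 2) : RC x y z := by
  simp only [InPoly, PCb, List.mem_cons, List.not_mem_nil, or_false, forall_eq_or_imp, forall_eq] at h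
  norm_num at h
  obtain ⟨⟨h1, h2, h3⟩, l1, l2, l3⟩ := h
  exact ⟨⟨by linarith, by linarith, by linarith⟩, by linarith, by linarith,
    ⟨hz, by linarith⟩, Or.inr hy⟩

/-- All constraint coefficients in all polytopes are positive. -/
lemma pos_of_mem {P : Poly} (h : P = P0a ∨ P = P0b ∨ P = PAa ∨ P = PAb ∨ P = PBa ∨ P = PBb ∨ P = PCa ∨ P = PCb) :
    (∀ C ∈ P.hi, 0 < C.α) ∧ (∀ C ∈ P.lo, 0 < C.α) := by
  rcases h with rfl | rfl | rfl | rfl | rfl | rfl | rfl | rfl <;>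
    simp [P0a, P0b, PAa, PAb, PBa, PBb, PCa, PCb]

lemma sel0_pos (i k : ℕ) (P : Poly) (h : sel0 i k = some P) :
    (∀ C ∈ P.hi, 0 < C.α) ∧ (∀ C ∈ P.lo, 0 < C.α) := by
  apply pos_of_mem
  unfold sel0 at h
  cases hb : Nat.ble 32 k <;> simp [hb] at h <;> simp [← h]

lemma selA_pos (i k : ℕ) (P : Poly) (h : selA i k = some P) :
    (∀ C ∈ P.hi, 0 < C.α) ∧ (∀ C ∈ P.lo, 0 < C.α) := by
  apply pos_of_mem
  unfold selA at h
  cases hb : Nat.ble 32 k <;> simp [hb] at h <;> simp [← h]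

lemma selB_pos (i k : ℕ) (P : Poly) (h : selB i k = some P) :
    (∀ C ∈ P.hi, 0 < C.α) ∧ (∀ C ∈ P.lo, 0 < C.α) := by
  apply pos_of_mem
  unfold selB at h
  cases hb : Nat.ble 32 k <;> cases hb' : Nat.ble (i + 1) 32 <;> simp [hb, hb'] at h <;> simp [← h]

lemma selC_pos (i k : ℕ) (P : Poly) (h : selC i k = some P) :
    (∀ C ∈ P.hi, 0 < C.α) ∧ (∀ C ∈ P.lo, 0 < C.α) := by
  apply pos_of_mem
  unfold selC at h
  cases hb : Nat.ble 32 k <;> cases hb' : Nat.ble (i + 1) 32 <;> simp [hb, hb'] at h <;> simp [← h]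

lemma sel0_sound (i k : ℕ) (P : Poly) (x y z : ℝ) (h : sel0 i k = some P)
    (_ : i < gridG) (_ : k < gridG) (_ : (i : ℝ) / (gridG : ℕ) ≤ y)
    (_ : y < ((i : ℝ) + 1) / (gridG : ℕ)) (hz : (k : ℝ) / (gridG : ℕ) ≤ z)
    (_ : z < ((k : ℝ) + 1) / (gridG : ℕ)) (hP : InPoly P x y z) : R0 x y z := by
  unfold sel0 at h
  cases hb : Nat.ble 32 k
  · simp [hb] at h
    subst h
    exact P0b_sound hP
  · simp [hb] at h
    subst h
    exact P0a_sound hP (half_le_of_cell (Nat.le_of_ble_eq_true hb) hz)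

lemma selA_sound (i k : ℕ) (P : Poly) (x y z : ℝ) (h : selA i k = some P)
    (_ : i < gridG) (_ : k < gridG) (_ : (i : ℝ) / (gridG : ℕ) ≤ y)
    (_ : y < ((i : ℝ) + 1) / (gridG : ℕ)) (hz : (k : ℝ) / (gridG : ℕ) ≤ z)
    (_ : z < ((k : ℝ) + 1) / (gridG : ℕ)) (hP : InPoly P x y z) : RA x y z := by
  unfold selA at h
  cases hb : Nat.ble 32 k
  · simp [hb] at h
    subst h
    exact PAb_sound hP
  · simp [hb] at h
    subst h
    exact PAa_sound hP (half_le_of_cell (Nat.le_of_ble_eq_true hb) hz)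

lemma selB_sound (i k : ℕ) (P : Poly) (x y z : ℝ) (h : selB i k = some P)
    (_ : i < gridG) (_ : k < gridG) (_ : (i : ℝ) / (gridG : ℕ) ≤ y)
    (hy : y < ((i : ℝ) + 1) / (gridG : ℕ)) (hz : (k : ℝ) / (gridG : ℕ) ≤ z)
    (_ : z < ((k : ℝ) + 1) / (gridG : ℕ)) (hP : InPoly P x y z) : RB x y z := by
  unfold selB at h
  cases hb : Nat.ble 32 k
  · simp [hb] at h
  · cases hb' : Nat.ble (i + 1) 32
    · simp [hb, hb'] at h
      subst h
      exact PBa_sound hP (half_le_of_cell (Nat.le_of_ble_eq_true hb) hz)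
    · simp [hb, hb'] at h
      subst h
      exact PBb_sound hP (half_le_of_cell (Nat.le_of_ble_eq_true hb) hz)
        (lt_half_of_cell (Nat.le_of_ble_eq_true hb') hy)

lemma selC_sound (i k : ℕ) (P : Poly) (x y z : ℝ) (h : selC i k = some P)
    (_ : i < gridG) (_ : k < gridG) (_ : (i : ℝ) / (gridG : ℕ) ≤ y)
    (hy : y < ((i : ℝ) + 1) / (gridG : ℕ)) (hz : (k : ℝ) / (gridG : ℕ) ≤ z)
    (_ : z < ((k : ℝ) + 1) / (gridG : ℕ)) (hP : InPoly P x y z) : RC x y z := by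
  unfold selC at h
  cases hb : Nat.ble 32 k
  · simp [hb] at h
  · cases hb' : Nat.ble (i + 1) 32
    · simp [hb, hb'] at h
      subst h
      exact PCa_sound hP (half_le_of_cell (Nat.le_of_ble_eq_true hb) hz)
    · simp [hb, hb'] at h
      subst h
      exact PCb_sound hP (half_le_of_cell (Nat.le_of_ble_eq_true hb) hz)
        (lt_half_of_cell (Nat.le_of_ble_eq_true hb') hy)

end Vale.Agent.Lib.P057R3
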