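import Vale.Agent.Lib.P057R3.Block
import Vale.Agent.Lib.P057R3.Core
import Vale.Agent.Lib.P057R3.Primes

namespace Vale.Agent.Lib.P057R3

open Finset

/-- The construction for a family of primes, arranged in blocks of three. -/
theorem block_step {N n x : ℕ} {Δ : ℝ} (hΔ0 : 0 ≤ Δ) (hn : 1 ≤ n) (hN : 0 < N)
    (p : Fin n → Fin 3 → ℕ)
    (hinj : ∀ j j' i i', p j i = p j' i' → j = j' ∧ i = i')
    (hp : ∀ j i, (p j i).Prime ∧ 3 ≤ p j i ∧ p j i ≤ x)
    (hcount : ∀ j, Δ * ((p j 0 * p j 1 * p j 2 : ℕ) : ℝ) ≤ (TN (p j 0) (p j 1) (p j 2)).card)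
    (hNM : N ≤ ∏ j, (p j 0 * p j 1 * p j 2)) :
    ∃ A : Finset ℕ, A ⊆ Finset.Icc 1 N ∧ ThreeFree A ∧
      (N : ℝ) * Δ ^ n / (2 * (2 * n * ((8 * FMax + 1) * (x : ℝ) ^ 2) + 1)) ≤ A.card := by
  classical
  have hne : ∀ j i, NeZero (p j i) := fun j i => ⟨(hp j i).1.ne_zero⟩
  have hodd : ∀ j i, p j i % 2 = 1 := by
    intro j i
    rcases (hp j i).1.eq_two_or_odd with h | h
    · have := (hp j i).2.1
      omega
    · exact h
  set m : Fin n → ℕ := fun j => p j 0 * p j 1 * p j 2 with hm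
  have hme : ∀ j, NeZero (m j) := fun j => by
    have h0 := (hp j 0).1.pos
    have h1 := (hp j 1).1.pos
    have h2 := (hp j 2).1.pos
    exact ⟨by simp only [hm]; positivity⟩
  have hcopij : ∀ j j' i i', (j, i) ≠ (j', i') → Nat.Coprime (p j i) (p j' i') := by
    intro j j' i i' hne'
    apply (Nat.coprime_primes (hp j i).1 (hp j' i').1).2
    intro h
    obtain ⟨e1, e2⟩ := hinj _ _ _ _ h
    exact hne' (by rw [e1, e2])
  have h12 : ∀ j, Nat.Coprime (p j 0) (p j 1) := fun j => hcopij j j 0 1 (by simp)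
  have h3 : ∀ j, Nat.Coprime (p j 0 * p j 1) (p j 2) := fun j =>
    Nat.Coprime.mul_left (hcopij j j 0 2 (by simp)) (hcopij j j 1 2 (by simp))
  have hcop : Pairwise (Function.onFun Nat.Coprime m) := by
    intro j j' hjj
    simp only [Function.onFun, hm]
    have aux : ∀ i i', Nat.Coprime (p j i) (p j' i') := fun i i' =>
      hcopij j j' i i' (by simp [hjj])
    apply Nat.Coprime.mul_left
    · apply Nat.Coprime.mul_left
      · exact Nat.Coprime.mul_right (Nat.Coprime.mul_right (aux 0 0) (aux 0 1)) (aux 0 2)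
      · exact Nat.Coprime.mul_right (Nat.Coprime.mul_right (aux 1 0) (aux 1 1)) (aux 1 2)
    · exact Nat.Coprime.mul_right (Nat.Coprime.mul_right (aux 2 0) (aux 2 1)) (aux 2 2)
  have hblock := fun j => @block_exists (p j 0) (p j 1) (p j 2) x (hne j 0) (hne j 1) (hne j 2)
    (h12 j) (h3 j) (hodd j 0) (hodd j 1) (hodd j 2) (hp j 0).2.2 (hp j 1).2.2 (hp j 2).2.2
  choose T F hT1 hT2 hT3 using hblock
  obtain ⟨A₀, hA₀, hfree, hcard⟩ := core m hcop T F ((8 * FMax + 1) * x ^ 2) hT2 hT3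
  obtain ⟨A, hA1, hA2, hA3⟩ := window hN hNM hA₀ hfree
  refine ⟨A, hA1, hA2, le_trans ?_ hA3⟩
  set M : ℕ := ∏ j, m j with hM
  have hMr : (0 : ℝ) < M := by
    have : 0 < M := lt_of_lt_of_le hN hNM
    exact_mod_cast this
  have hNr : (0 : ℝ) < N := by exact_mod_cast hN
  have hTlow : ∀ j, Δ * (m j : ℝ) ≤ ((T j).card : ℝ) := by
    intro j
    refine (hcount j).trans ?_
    exact_mod_cast hT1 j
  have hprod : Δ ^ n * (M : ℝ) ≤ ∏ j, ((T j).card : ℝ) := by
    have h1 : ∏ j : Fin n, (Δ * (m j : ℝ)) ≤ ∏ j, ((T j).card : ℝ) := by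
      apply Finset.prod_le_prod
      · intro j _
        positivity
      · intro j _
        exact hTlow j
    have h2 : ∏ j : Fin n, (Δ * (m j : ℝ)) = Δ ^ n * (M : ℝ) := by
      rw [Finset.prod_mul_distrib, hM]
      simp only [Finset.prod_const, Finset.card_univ, Fintype.card_fin]
      push_cast
      rfl
    rwa [h2] at h1
  have hR : (0 : ℝ) < 2 * n * (((8 * FMax + 1) * x ^ 2 : ℕ) : ℝ) + 1 := by positivity
  have hstep : Δ ^ n * (M : ℝ) / (2 * n * (((8 * FMax + 1) * x ^ 2 : ℕ) : ℝ) + 1) ≤ A₀.card :=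
    le_trans (div_le_div_of_nonneg_right hprod hR.le) hcard
  calc (N : ℝ) * Δ ^ n / (2 * (2 * n * ((8 * FMax + 1) * (x : ℝ) ^ 2) + 1))
      = (Δ ^ n * (M : ℝ) / (2 * n * (((8 * FMax + 1) * x ^ 2 : ℕ) : ℝ) + 1)) * N / (2 * M) := by
        push_cast
        field_simp
    _ ≤ (A₀.card : ℝ) * N / (2 * M) := by
        apply div_le_div_of_nonneg_right _ (by positivity)
        apply mul_le_mul_of_nonneg_right hstep hNr.le

end Vale.Agent.Lib.P057R3
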