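import Vale.Agent.Lib.P057R3.Count

namespace Vale.Agent.Lib.P057R3

/-- The grid size. -/
def gridG : ℕ := 64
/-- The scale of the values. -/
def gridD : ℕ := 1048576

/-- Class `0`, upper part. -/
def P0a : Poly := ⟨[⟨200000, 100000, 0, 0, 265900⟩, ⟨100000, 90110, 200020, 0, 324300⟩, ⟨91650, 100000, 208300, 0, 332250⟩], [⟨200000, 100000, 0, 31800⟩, ⟨100000, 90110, 200020, 85240⟩, ⟨91650, 100000, 208300, 87370⟩]⟩
/-- Class `0`, lower part. -/
def P0b : Poly := ⟨[⟨200000, 100000, 0, 0, 265900⟩, ⟨100000, 90110, 200020, 0, 324300⟩, ⟨91650, 100000, 208300, 0, 332250⟩, ⟨90930, 90930, 0, 9070, 151170⟩], [⟨200000, 100000, 0, 31800⟩, ⟨100000, 90110, 200020, 85240⟩, ⟨91650, 100000, 208300, 87370⟩]⟩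
/-- Class `A`, upper part. -/
def PAa : Poly := ⟨[⟨200000, 100000, 0, 0, 265900⟩, ⟨100000, 90110, 200020, 0, 324300⟩, ⟨91650, 100000, 208300, 0, 332250⟩], [⟨200000, 100000, 0, 200001⟩, ⟨100000, 90110, 200020, 99840⟩, ⟨91650, 100000, 208300, 91060⟩]⟩
/-- Class `A`, lower part. -/
def PAb : Poly := ⟨[⟨200000, 100000, 0, 0, 265900⟩, ⟨100000, 90110, 200020, 0, 324300⟩, ⟨91650, 100000, 208300, 0, 332250⟩, ⟨90930, 90930, 0, 9070, 151170⟩], [⟨200000, 100000, 0, 200001⟩, ⟨100000, 90110, 200020, 99840⟩, ⟨91650, 100000, 208300, 91060⟩]⟩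
/-- Class `B`, large `x`. -/
def PBa : Poly := ⟨[⟨200000, 100000, 0, 0, 265900⟩, ⟨100000, 90110, 200020, 0, 324300⟩, ⟨91650, 100000, 208300, 0, 332250⟩], [⟨100000, 90110, 200020, 263341⟩, ⟨91650, 100000, 208300, 265141⟩, ⟨90930, 90930, 190930, 251171⟩, ⟨100000, 0, 0, 50001⟩]⟩
/-- Class `B`, small `y`. -/
def PBb : Poly := ⟨[⟨200000, 100000, 0, 0, 265900⟩, ⟨100000, 90110, 200020, 0, 324300⟩, ⟨91650, 100000, 208300, 0, 332250⟩], [⟨100000, 90110, 200020, 263341⟩, ⟨91650, 100000, 208300, 265141⟩, ⟨90930, 90930, 190930, 251171⟩]⟩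
/-- Class `C`, large `x`. -/
def PCa : Poly := ⟨[⟨200000, 100000, 0, 0, 265900⟩, ⟨100000, 90110, 200020, 0, 324300⟩, ⟨91650, 100000, 208300, 0, 332250⟩], [⟨100000, 90110, 200020, 248741⟩, ⟨91650, 100000, 208300, 268831⟩, ⟨90930, 90930, 190930, 251171⟩, ⟨100000, 0, 0, 50001⟩]⟩
/-- Class `C`, small `y`. -/
def PCb : Poly := ⟨[⟨200000, 100000, 0, 0, 265900⟩, ⟨100000, 90110, 200020, 0, 324300⟩, ⟨91650, 100000, 208300, 0, 332250⟩], [⟨100000, 90110, 200020, 248741⟩, ⟨91650, 100000, 208300, 268831⟩, ⟨90930, 90930, 190930, 251171⟩]⟩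

/-- Selection of the polytope for a cell, class `0`. -/
def sel0 (_i k : ℕ) : Option Poly := some (bif Nat.ble 32 k then P0a else P0b)
/-- Selection of the polytope for a cell, class `A`. -/
def selA (_i k : ℕ) : Option Poly := some (bif Nat.ble 32 k then PAa else PAb)
/-- Selection of the polytope for a cell, class `B`. -/
def selB (i k : ℕ) : Option Poly :=
  bif Nat.ble 32 k then some (bif Nat.ble (i + 1) 32 then PBb else PBa) else none
/-- Selection of the polytope for a cell, class `C`. -/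
def selC (i k : ℕ) : Option Poly :=
  bif Nat.ble 32 k then some (bif Nat.ble (i + 1) 32 then PCb else PCa) else none

/-- The sum over a row of cells. -/
def rowSum (sel : ℕ → ℕ → Option Poly) (i : ℕ) : ℕ → ℕ
  | 0 => 0
  | k + 1 => rowSum sel i k + cellVal gridD gridG (sel i k) i k

/-- The sum over the grid. -/
def gridSum (sel : ℕ → ℕ → Option Poly) : ℕ → ℕ
  | 0 => 0
  | i + 1 => gridSum sel i + rowSum sel i gridG

end Vale.Agent.Lib.P057R3
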